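import Vale.Agent.P004S.G.Defs
import Vale.Agent.P022K.G2.SpecA

/-!
# P004S, Galois half: the arithmetic of the rational field, words and rows (helper61)
-/

set_option linter.all false

noncomputable section

namespace Vale.Agent.P004S.Ga

open NumberField Finset Topology
open Vale.Agent.P022 Vale.Agent.P022.C
open Vale.Agent.P027M.S (Inert)
open Vale.Agent.P022D.W (dec)
open Vale.Agent.P022.H443 (inP)
open Vale.Agent.P022E.GW (Ov Fb)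
open Vale.Agent.P022K.G2 (ka rt St ip)
open scoped Classical

/-- the sign by which `g` moves the square roots of the rational number `b` -/
def sg (b : ℚ) : GQ →* K where
  toFun g := if g (rt 2 (b : Qb)) = rt 2 (b : Qb) then 1 else -1
  map_one' := by simp
  map_mul' g h := by
    have k : ∀ s : GQ, s (rt 2 (b : Qb)) = rt 2 (b : Qb) ∨ s (rt 2 (b : Qb)) = -rt 2 (b : Qb) :=
      fun s => sq_eq_sq_iff_eq_or_eq_neg.1 (by
        rw [← map_pow, P022K.G2.rt_pow]; exact map_ratCast s b)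
    by_cases e : rt 2 (b : Qb) = -rt 2 (b : Qb)
    · have : ∀ s : GQ, s (rt 2 (b : Qb)) = rt 2 (b : Qb) := fun s =>
        (k s).elim id fun h => h.trans e.symm
      simp [this]
    · have e' : ¬ -rt 2 (b : Qb) = rt 2 (b : Qb) := fun h => e h.symm
      rcases k g with a | a <;> rcases k h with c | c <;> simp [AlgEquiv.mul_apply, a, c, e']

/-- the cyclotomic character -/
def cyc : GQ →* K where
  toFun g := ((cyclotomicCharacter Qb 2 g.toRingEquiv : ℤ_[2]ˣ) : ℤ_[2])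
  map_one' := by
    rw [show (1 : GQ).toRingEquiv = 1 from rfl, map_one]; rfl
  map_mul' g h := by
    rw [show (g * h).toRingEquiv = g.toRingEquiv * h.toRingEquiv from rfl, map_mul]; rfl

/-- a choice of places, Frobenius elements and generators of tame inertia -/
structure Cn where
  P : ℕ → Ideal (𝓞 Qb)
  φ : ℕ → GQ
  t : ℕ → GQ
  w : InfinitePlace Qb
  ov : ∀ p, p.Prime → Ov p (P p)
  fb : ∀ p, p.Prime → Fb p (P p) (φ p)
  ta : ∀ p, p.Prime → p ≠ 2 → Inert (P p) (t p) ∧ ka 2 (p : Qb) (t p) = 1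

namespace Cn

variable (c : Cn)

/-- decomposition groups -/
def D (v : ℕ) : Subgroup GQ := if v.Prime then dec (c.P v) else if v = 0 then St (ip c.w) else ⊥

/-- inertia groups -/
def I (v : ℕ) : Subgroup GQ := if v.Prime then inP (c.P v) else ⊥

/-- generators of tame inertia -/
def τ (v : ℕ) : GQ := if v.Prime ∧ v ≠ 2 then c.t v else 1

/-- Frobenius elements -/
def F (v : ℕ) : GQ := if v.Prime then c.φ v else 1

end Cn

/-- the characters of the places -/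
def kap (v : ℕ) : GQ →* K := if v = 0 then sg (-1) else if v.Prime then sg v else 1

variable (c : Cn)

/-- local groups -/
structure AR1 : Prop where
  le : ∀ p, c.I p ≤ c.D p
  nrm : ∀ p, ∀ g ∈ c.D p, ∀ i ∈ c.I p, g * i * g⁻¹ ∈ c.I p
  τ_mem : ∀ p, c.τ p ∈ c.I p
  F_mem : ∀ p, c.F p ∈ c.D p
  tam : ∀ p, p.Prime → p ≠ 2 → ∀ H : Subgroup GQ, (H : Set GQ) ∈ 𝓝[c.I p] (1 : GQ) → c.τ p ∈ H →
    (∀ i ∈ c.I p, i * i ∈ H) → c.I p ≤ H
  frob : ∀ p, p.Prime → ∀ H : Subgroup GQ, (H : Set GQ) ∈ 𝓝[c.D p] (1 : GQ) → c.I p ≤ H →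
    c.F p ∈ H → c.D p ≤ H
  fin : ∀ W ∈ 𝓝 (1 : GQ), {p : ℕ | p.Prime ∧ ¬ (c.I p : Set GQ) ⊆ W}.Finite
  cy_cont : Continuous cyc
  cy_one : ∀ g, 2⁻¹ * (cyc g - 1) ∈ O

/-- quadratic characters -/
structure AR2 : Prop where
  sg_qc : ∀ b, Qc (sg b)
  sg_mul : ∀ a b : ℚ, a ≠ 0 → b ≠ 0 → sg (a * b) = sg a * sg b
  κ_ur : ∀ v p, p.Prime → p ≠ 2 → p ≠ v → ∀ i ∈ c.I p, kap v i = 1
  κ_τ : ∀ p, p.Prime → p ≠ 2 → kap p (c.τ p) = -1
  κ_F : ∀ (a : ℤ) (p : ℕ) [Fact p.Prime], p ≠ 2 → ¬ (p : ℤ) ∣ a →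
    sg a (c.F p) = (legendreSym p a : ℤ)
  qr : ∀ p q v, p.Prime → q.Prime → p ≠ 2 → q ≠ 2 → Pl v → p ≠ v → q ≠ v →
    kap 0 (c.F p) = kap 0 (c.F q) → kap 2 (c.F p) = kap 2 (c.F q) →
    kap v (c.F p) = kap v (c.F q) → ∀ g ∈ c.D v, kap p g = kap q g
  gen : ∀ T : Finset ℕ, 0 ∈ T → 2 ∈ T → ∀ f : GQ →* K, Qc f →
    (∀ p, p.Prime → p ∉ T → ∀ i ∈ c.I p, f i = 1) → ∃ U ⊆ T, f = ∏ v ∈ U, kap v

/-- divisibility of the first cohomology (Hilbert 90) -/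
def DIV : Prop := ∀ (D : Subgroup GQ) (θ : GQ → K), IsClosed (D : Set GQ) → ContinuousOn θ D →
  (∀ g ∈ D, ∀ h ∈ D, d2 cyc θ g h ∈ O) → ∃ θ' : GQ → K, ContinuousOn θ' D ∧
    (∀ g ∈ D, ∀ h ∈ D, d2 cyc θ' g h ∈ O) ∧ ∀ g ∈ D, 2 * θ' g - θ g ∈ O

/-- the local global principle and reciprocity -/
structure AR3 : Prop where
  has : ∀ z, Z2 cyc ⊤ z → (∀ g h, 2 * z g h ∈ O) → (∀ v, Pl v → B2 cyc (c.D v) z) →
    ∃ η : GQ → K, Continuous η ∧ (∀ g, 2 * η g ∈ O) ∧ ∀ g h, z g h - d2 cyc η g h ∈ O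
  rcp : ∀ (P : Finset ℕ) (z : GQ → GQ → K) (χ : ℕ → GQ →* K) (θ : ℕ → GQ → K), Z2 cyc ⊤ z →
    (∀ v, Pl v → v ∉ P → B2 cyc (c.D v) z) →
    (∀ p ∈ P, p.Prime ∧ p ≠ 2 ∧ Qc (χ p) ∧ χ p (c.τ p) = -1 ∧ Uc (c.D p) (c.I p) (θ p) ∧
      B2 cyc (c.D p) fun g h => z g h - 2⁻¹ * (1 - χ p g) * θ p h) → ∑ p ∈ P, θ p (c.F p) ∈ O

/-- unramified cocycles -/
def AR4 : Prop := ∀ p, p.Prime → p ≠ 2 → ∀ z, Z2 cyc (c.D p) z →
  (∀ g ∈ c.D p, ∀ h ∈ c.D p, ∀ i ∈ c.I p, z (g * i) h - z g h ∈ O ∧ z g (h * i) - z g h ∈ O) →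
  B2 cyc (c.D p) z

/-- the arithmetic of the rational field -/
def arQ (h1 : AR1 c) (h2 : AR2 c) (h3 : AR3 c) (h4 : AR4 c) : Ar GQ where
  D := c.D
  I := c.I
  τ := c.τ
  F := c.F
  cy := cyc
  κ := kap
  le := h1.le
  nrm := h1.nrm
  τ_mem := h1.τ_mem
  F_mem := h1.F_mem
  tam := h1.tam
  frob := h1.frob
  fin := h1.fin
  cy_cont := h1.cy_cont
  cy_one := h1.cy_one
  κ_qc v := by
    unfold kap
    split_ifs
    · exact h2.sg_qc _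
    · exact h2.sg_qc _
    · exact ⟨fun _ => Or.inl rfl, continuous_const⟩
  κ_ur := h2.κ_ur
  κ_τ := h2.κ_τ
  qr := h2.qr
  gen := h2.gen
  has := h3.has
  unr := h4
  rcp := h3.rcp

end Vale.Agent.P004S.Ga
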