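import Vale.Agent.P004S.G.Defs

/-!
# P004S, Galois half: elementary lemmas (helper61)
-/

set_option linter.all false

noncomputable section

namespace Vale.Agent.P004S.Ga

open Finset Topology

/-! ### the integers -/

theorem two_ne : (2 : K) ≠ 0 := two_ne_zero

theorem O_mul {x y : K} (hx : x ∈ O) (hy : y ∈ O) : x * y ∈ O :=
  (PadicInt.subring 2).mul_mem hx hy

theorem O_one : (1 : K) ∈ O := (PadicInt.subring 2).one_mem

theorem O_int (n : ℤ) : (n : K) ∈ O := intCast_mem (PadicInt.subring 2) n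

theorem O_nat (n : ℕ) : (n : K) ∈ O := natCast_mem (PadicInt.subring 2) n

theorem O_two : (2 : K) ∈ O := O_nat 2

theorem O_pow {x : K} (hx : x ∈ O) (n : ℕ) : x ^ n ∈ O := (PadicInt.subring 2).pow_mem hx n

theorem O_sign {x y : K} (hx : x = 1 ∨ x = -1) (hy : y ∈ O) : x * y ∈ O := by
  rcases hx with rfl | rfl
  · rwa [one_mul]
  · rw [neg_one_mul]; exact neg_mem hy

theorem O_neg_one_pow (n : ℕ) {y : K} (hy : y ∈ O) : (-1 : K) ^ n * y ∈ O :=
  O_sign (neg_one_pow_eq_or K n) hy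

theorem O_open : IsOpen (O : Set K) := by
  have : (O : Set K) = Metric.closedBall 0 1 := by ext x; simp [mem_O]
  rw [this]
  exact IsUltrametricDist.isOpen_closedBall 0 one_ne_zero

theorem O_of_eq {x y : K} (hy : y ∈ O) (h : x = y) : x ∈ O := h ▸ hy

theorem half_notMem : (2⁻¹ : K) ∉ O := by
  rw [mem_O, norm_inv, show (2 : K) = ((2 : ℕ) : K) from rfl, Padic.norm_p]
  norm_num

/-- an element of `O / 2` is `0` or `1 / 2` modulo `O` -/
theorem half_cases {x : K} (hx : 2 * x ∈ O) : x ∈ O ∨ x - 2⁻¹ ∈ O := by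
  let a : ℤ_[2] := ⟨2 * x, hx⟩
  obtain ⟨b, hb⟩ := Ideal.mem_span_singleton'.1
    (PadicInt.maximalIdeal_eq_span_p (p := 2) ▸ PadicInt.sub_zmodRepr_mem a)
  have e : (b : K) * 2 = 2 * x - (a.zmodRepr : K) := by
    have := congrArg (fun t : ℤ_[2] => (t : K)) hb
    simp only [PadicInt.coe_mul, PadicInt.coe_sub, PadicInt.coe_natCast] at this
    exact this
  have l := a.zmodRepr_lt_p
  have hb' : (b : K) ∈ O := b.2
  interval_cases h : a.zmodRepr
  · left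
    refine O_of_eq hb' ?_
    simp only [Nat.cast_zero, sub_zero] at e
    linear_combination (-2⁻¹ : K) * e
  · right
    refine O_of_eq hb' ?_
    simp only [Nat.cast_one] at e
    linear_combination (-2⁻¹ : K) * e

theorem half_add {x y : K} (hx : 2 * x ∈ O) (hy : 2 * y ∈ O) (h : x ∉ O) : x + y ∈ O ↔ y ∉ O := by
  have a := (half_cases hx).resolve_left h
  refine ⟨fun k hy' => h (O_of_eq (sub_mem k hy') (by ring)), fun k => ?_⟩
  exact O_of_eq (add_mem (add_mem a ((half_cases hy).resolve_left k)) O_one) (by ring)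

theorem half_sub {x y : K} (hx : 2 * x ∈ O) (hy : 2 * y ∈ O) : x + y ∈ O ↔ (x ∈ O ↔ y ∈ O) := by
  by_cases h : x ∈ O
  · exact ⟨fun k => ⟨fun _ => O_of_eq (sub_mem k h) (by ring), fun _ => h⟩,
      fun k => add_mem h (k.1 h)⟩
  · rw [half_add hx hy h]
    tauto

/-! ### lattices -/

section sc

variable {V : Type} [AddCommGroup V] [Module K V] {A : AddSubgroup V} {i j : ℕ} {x : V}

theorem mem_sc' : x ∈ sc A j ↔ ∃ a ∈ A, x = (2 : K) ^ j • a :=
  ⟨fun h => ⟨_, h, by rw [smul_inv_smul₀ (pow_ne_zero _ two_ne)]⟩, by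
    rintro ⟨a, ha, rfl⟩
    rwa [mem_sc, inv_smul_smul₀ (pow_ne_zero _ two_ne)]⟩

theorem sc0 : sc A 0 = A := by ext x; simp [mem_sc]

theorem mem_sc_zero (h : x ∈ A) : x ∈ sc A 0 := by rwa [sc0]

theorem sc_add : sc (sc A i) j = sc A (i + j) := by
  ext x
  rw [mem_sc, mem_sc, mem_sc, smul_smul, pow_add, mul_inv]

theorem smul_mem_sc (h : x ∈ sc A i) (j : ℕ) : (2 : K) ^ j • x ∈ sc A (i + j) := by
  rw [← sc_add, mem_sc, inv_smul_smul₀ (pow_ne_zero _ two_ne)]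
  exact h

theorem inv_mem_sc (h : x ∈ sc A (i + j)) : ((2 : K) ^ j)⁻¹ • x ∈ sc A i := by
  rw [← sc_add] at h
  exact h

theorem half_mem_sc (h : x ∈ sc A (i + 1)) : (2 : K)⁻¹ • x ∈ sc A i := by
  simpa using inv_mem_sc h

theorem half_mem (h : x ∈ sc A 1) : (2 : K)⁻¹ • x ∈ A := by simpa [mem_sc] using h

theorem two_mem_sc (h : x ∈ sc A i) : (2 : K) • x ∈ sc A (i + 1) := by
  simpa using smul_mem_sc h 1

theorem two_mem (h : x ∈ A) : (2 : K) • x ∈ sc A 1 := mem_sc'.2 ⟨x, h, by rw [pow_one]⟩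

theorem of_two_mem_sc (h : (2 : K) • x ∈ sc A (i + 1)) : x ∈ sc A i := by
  simpa [smul_smul] using half_mem_sc h

theorem nat_smul_mem (h : x ∈ A) (n : ℕ) : (n : K) • x ∈ A := by
  rw [Nat.cast_smul_eq_nsmul]
  exact nsmul_mem h n

theorem sc_sub : sc A j ≤ A := fun x h => by
  obtain ⟨a, ha, rfl⟩ := mem_sc'.1 h
  simpa using nat_smul_mem ha (2 ^ j)

theorem sc_up (h : i ≤ j) : sc A j ≤ sc A i := by
  obtain ⟨k, rfl⟩ := Nat.exists_eq_add_of_le h
  rw [← sc_add]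
  exact sc_sub

theorem sc_le_sc {B : AddSubgroup V} (h : A ≤ B) : sc A j ≤ sc B j := fun _ hx => h hx

theorem sign_mem {ε : K} (hε : ε = 1 ∨ ε = -1) (h : x ∈ A) : ε • x ∈ A := by
  rcases hε with rfl | rfl
  · rwa [one_smul]
  · rw [neg_one_smul]; exact neg_mem h

theorem neg_one_pow_mem (n : ℕ) (h : x ∈ A) : (-1 : K) ^ n • x ∈ A :=
  sign_mem (neg_one_pow_eq_or K n) h

/-- two signs agree modulo two -/
theorem sign_sub {ε ε' : K} (hε : ε = 1 ∨ ε = -1) (hε' : ε' = 1 ∨ ε' = -1) (h : x ∈ sc A j) :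
    ε • x - ε' • x ∈ sc A (j + 1) := by
  have h2 := two_mem_sc h
  rcases hε with rfl | rfl <;> rcases hε' with rfl | rfl
  · simp
  · convert h2 using 1; module
  · convert neg_mem h2 using 1; module
  · simp

theorem mem_of_eq {y : V} (hy : y ∈ A) (h : x = y) : x ∈ A := h ▸ hy

theorem sc_map (f : V →ₗ[K] V) {B : AddSubgroup V} (hf : ∀ a ∈ A, f a ∈ B) (h : x ∈ sc A j) :
    f x ∈ sc B j := by
  rw [mem_sc, ← map_smul]
  exact hf _ h

theorem rd_iff {y : V} : rd A j x = rd A j y ↔ x - y ∈ sc A j := QuotientAddGroup.eq_iff_sub_mem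

theorem sc_open [TopologicalSpace V] [ContinuousSMul K V] (h : IsOpen (A : Set V)) :
    IsOpen (sc A j : Set V) := h.preimage (continuous_const_smul _)

theorem pair_sc {e : V →ₗ[K] V →ₗ[K] K} {B : AddSubgroup V} (he : ∀ a ∈ A, ∀ b ∈ B, 2 * e a b ∈ O)
    {y : V} (hx : x ∈ sc A i) (hy : y ∈ sc B j) : ((2 : K) ^ (i + j))⁻¹ * 2 * e x y ∈ O := by
  refine O_of_eq (he _ hx _ hy) ?_
  simp only [map_smul, LinearMap.smul_apply, smul_eq_mul, pow_add, mul_inv]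
  ring

/-- the basic estimate for the pairing -/
theorem pair_le {e : V →ₗ[K] V →ₗ[K] K} {B : AddSubgroup V} (he : ∀ a ∈ A, ∀ b ∈ B, 2 * e a b ∈ O)
    {y : V} {k : ℕ} (hk : k + 1 ≤ i + j) (hx : x ∈ sc A i) (hy : y ∈ sc B j) :
    ((2 : K) ^ k)⁻¹ * e x y ∈ O := by
  obtain ⟨l, hl⟩ := Nat.exists_eq_add_of_le hk
  refine O_of_eq (O_mul (O_pow O_two l) (pair_sc he hx hy)) ?_
  rw [hl]
  field_simp
  ring

theorem pair_l {e : V →ₗ[K] V →ₗ[K] K} {B : AddSubgroup V} (he : ∀ a ∈ A, ∀ b ∈ B, 2 * e a b ∈ O)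
    {y : V} (hx : x ∈ sc A 1) (hy : y ∈ B) : e x y ∈ O := by
  simpa using pair_le (k := 0) (j := 0) he le_rfl hx (mem_sc_zero hy)

theorem pair_r {e : V →ₗ[K] V →ₗ[K] K} {B : AddSubgroup V} (he : ∀ a ∈ A, ∀ b ∈ B, 2 * e a b ∈ O)
    {y : V} (hx : x ∈ A) (hy : y ∈ sc B 1) : e x y ∈ O := by
  simpa using pair_le (k := 0) (i := 0) he le_rfl (mem_sc_zero hx) hy

end sc

/-! ### quadratic characters -/

section qc

variable {G : Type} [Group G] [TopologicalSpace G] {χ χ' : G →* K}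

theorem sign_mul {a b : K} (ha : a = 1 ∨ a = -1) (hb : b = 1 ∨ b = -1) :
    a * b = 1 ∨ a * b = -1 := by
  rcases ha with rfl | rfl <;> rcases hb with rfl | rfl <;> simp

theorem sign_sq {a : K} (ha : a = 1 ∨ a = -1) : a * a = 1 := by
  rcases ha with rfl | rfl <;> simp

theorem Qc.one : Qc (1 : G →* K) := ⟨fun _ => Or.inl rfl, continuous_const⟩

theorem Qc.mul (h : Qc χ) (h' : Qc χ') : Qc (χ * χ') :=
  ⟨fun g => sign_mul (h.sq g) (h'.sq g), h.cont.mul h'.cont⟩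

theorem Qc.prod {ι : Type} (s : Finset ι) {f : ι → G →* K} (h : ∀ i ∈ s, Qc (f i)) :
    Qc (∏ i ∈ s, f i) := prod_induction f Qc (fun _ _ => Qc.mul) Qc.one h

theorem Qc.mul_self (h : Qc χ) (g : G) : χ g * χ g = 1 := sign_sq (h.sq g)

theorem Qc.inv (h : Qc χ) (g : G) : χ g⁻¹ = χ g := by
  have := map_mul χ g⁻¹ g
  rw [inv_mul_cancel, map_one] at this
  linear_combination (-χ g⁻¹) * h.mul_self g - χ g * this

theorem Qc.conj (h : Qc χ) (g k : G) : χ (g * k * g⁻¹) = χ k := by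
  rw [map_mul, map_mul, h.inv]
  linear_combination χ k * h.mul_self g

theorem Qc.cm (h : Qc χ) (g k : G) : χ (cm g k) = 1 := by
  rw [Ga.cm, map_mul, h.conj, h.inv, h.mul_self]

/-- the additive form of a quadratic character is `0` or `1` -/
theorem Qc.half (h : Qc χ) (g : G) : 2⁻¹ * (1 - χ g) = 0 ∨ 2⁻¹ * (1 - χ g) = (1 : K) := by
  rcases h.sq g with e | e <;> rw [e] <;> norm_num

theorem Qc.half_mem (h : Qc χ) (g : G) : 2⁻¹ * (1 - χ g) ∈ O := by
  rcases h.half g with e | e <;> rw [e]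
  · exact zero_mem _
  · exact O_one

theorem Qc.half_mul (h : Qc χ) (g k : G) : 2⁻¹ * (1 - χ (g * k)) =
    2⁻¹ * (1 - χ g) + 2⁻¹ * (1 - χ k) - 2 * (2⁻¹ * (1 - χ g) * (2⁻¹ * (1 - χ k))) := by
  rw [map_mul]; ring

variable (𝔞 : Ar G)

theorem Ar.cy_mem (g : G) : 𝔞.cy g ∈ O :=
  O_of_eq (add_mem (O_mul O_two (𝔞.cy_one g)) O_one) (by ring)

theorem Ar.cy_mul (g : G) {x : K} (h : x ∈ O) : 𝔞.cy g * x ∈ O := O_mul (𝔞.cy_mem g) h

theorem Ar.cy_half (g : G) {x : K} (h : 2 * x ∈ O) : 𝔞.cy g * x - x ∈ O :=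
  O_of_eq (O_mul (𝔞.cy_one g) h) (by ring)

theorem Ar.τ_D (p : ℕ) : 𝔞.τ p ∈ 𝔞.D p := 𝔞.le p (𝔞.τ_mem p)

end qc

/-! ### cochains -/

section coc

variable {G : Type} [Group G] {V : Type} [AddCommGroup V] [Module K V]
  {σ : Representation K G V} {e : V →ₗ[K] V →ₗ[K] K} {cy χ χ' : G →* K} {A B : AddSubgroup V}
  {D D' : Subgroup G} {i j n : ℕ} {ψ φ y : G → V} {z z' : G → G → K}

theorem rep_mul (σ : Representation K G V) (g h : G) (x : V) : σ (g * h) x = σ g (σ h x) := by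
  rw [map_mul]; rfl

theorem rep_one (σ : Representation K G V) (x : V) : σ 1 x = x := by rw [map_one]; rfl

theorem rep_inv (σ : Representation K G V) (g : G) (x : V) : σ g⁻¹ (σ g x) = x := by
  rw [← rep_mul, inv_mul_cancel, rep_one]

theorem rep_inv' (σ : Representation K G V) (g : G) (x : V) : σ g (σ g⁻¹ x) = x := by
  rw [← rep_mul, mul_inv_cancel, rep_one]

theorem d1_d0 (a : V) (g h : G) : d1 σ (d0 σ a) g h = 0 := by
  simp only [d1, d0, map_sub, rep_mul]; abel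

theorem d1_add (g h : G) : d1 σ (ψ + φ) g h = d1 σ ψ g h + d1 σ φ g h := by
  simp only [d1, Pi.add_apply, map_add]; abel

theorem d1_sub (g h : G) : d1 σ (ψ - φ) g h = d1 σ ψ g h - d1 σ φ g h := by
  simp only [d1, Pi.sub_apply, map_sub]; abel

theorem d1_smul (c : K) (g h : G) : d1 σ (c • ψ) g h = c • d1 σ ψ g h := by
  simp only [d1, Pi.smul_apply, map_smul, smul_sub, smul_add]

theorem d1_sum {ι : Type} (s : Finset ι) (f : ι → G → V) (g h : G) :
    d1 σ (∑ i ∈ s, f i) g h = ∑ i ∈ s, d1 σ (f i) g h := by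
  simp only [d1, Finset.sum_apply, map_sum, sum_add_distrib, sum_sub_distrib]

theorem d1_mul (g h : G) : ψ (g * h) = ψ g + σ g (ψ h) - d1 σ ψ g h := by
  simp only [d1]; abel

theorem d0_add (a b : V) (g : G) : d0 σ (a + b) g = d0 σ a g + d0 σ b g := by
  simp only [d0, map_add]; abel

theorem d0_sub (a b : V) (g : G) : d0 σ (a - b) g = d0 σ a g - d0 σ b g := by
  simp only [d0, map_sub]; abel

theorem d0_smul (c : K) (a : V) (g : G) : d0 σ (c • a) g = c • d0 σ a g := by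
  simp only [d0, map_smul, smul_sub]

theorem d0_neg (a : V) (g : G) : d0 σ (-a) g = -d0 σ a g := by
  simp only [d0, map_neg]; abel

theorem d0_mul (a : V) (g h : G) : d0 σ a (g * h) = d0 σ a g + σ g (d0 σ a h) := by
  simp only [d0, map_sub, rep_mul]; abel

theorem d0_sum {ι : Type} (s : Finset ι) (f : ι → V) (g : G) :
    d0 σ (∑ i ∈ s, f i) g = ∑ i ∈ s, d0 σ (f i) g := by
  simp only [d0, map_sum, sum_sub_distrib]

theorem d3_d2 (θ : G → K) (g h k : G) : d3 cy (d2 cy θ) g h k = 0 := by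
  simp only [d3, d2, map_mul, mul_assoc]; ring

/-- the differential of a cup product -/
theorem d3_cup (he : ∀ g x y, e (σ g x) (σ g y) = cy g * e x y) (g h k : G) :
    d3 cy (cup e σ ψ y) g h k =
      e (d1 σ ψ g h) (σ (g * h) (y k)) - e (ψ g) (σ g (d1 σ y h k)) := by
  simp only [d3, cup, d1, ← he, map_add, map_sub, LinearMap.add_apply, LinearMap.sub_apply, rep_mul]
  ring

/-- the cup product with a coboundary on the left -/
theorem cup_d0_left (he : ∀ g x y, e (σ g x) (σ g y) = cy g * e x y) (a : V) (g h : G) :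
    cup e σ (d0 σ a) y g h = d2 cy (fun k => e a (y k)) g h - e a (d1 σ y g h) := by
  simp only [d2, cup, d1, d0, ← he, map_add, map_sub, LinearMap.sub_apply]
  ring

/-- the cup product with a coboundary on the right -/
theorem cup_d0_right (he : ∀ g x y, e (σ g x) (σ g y) = cy g * e x y) (β : V) (g h : G) :
    cup e σ ψ (d0 σ β) g h =
      e (d1 σ ψ g h) (σ (g * h) β) - d2 cy (fun k => e (ψ k) (σ k β)) g h := by
  simp only [d2, cup, d1, d0, ← he, map_add, map_sub, LinearMap.add_apply, LinearMap.sub_apply,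
    rep_mul]
  ring

theorem tw_eqv (he : ∀ g x y, e (σ g x) (σ g y) = cy g * e x y) (h : ∀ g, χ g = 1 ∨ χ g = -1)
    (g : G) (x y : V) : e (tw σ χ g x) (tw σ χ g y) = cy g * e x y := by
  simp only [tw_apply, map_smul, LinearMap.smul_apply, smul_eq_mul, he]
  linear_combination (cy g * e x y) * sign_sq (h g)

theorem tw_mul (g : G) (x : V) : tw σ (χ * χ') g x = χ' g • tw σ χ g x := by
  simp only [tw_apply, MonoidHom.mul_apply, smul_smul, mul_comm]

theorem tw_congr {g : G} (h : χ g = χ' g) : tw σ χ g = tw σ χ' g := by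
  ext x; simp only [tw_apply, h]

theorem Tr.sc {g : G} (h : Tr σ A g) {x : V} (hx : x ∈ sc A j) : d0 σ x g ∈ sc A (j + 1) := by
  obtain ⟨a, ha, rfl⟩ := mem_sc'.1 hx
  rw [d0_smul, add_comm]
  exact smul_mem_sc (h a ha) j

theorem Tr.one : Tr σ A 1 := fun a _ => by simp [d0]

theorem Tr.tw {g : G} (h : Tr σ A g) (hχ : χ g = 1 ∨ χ g = -1) : Tr (tw σ χ) A g := fun a ha => by
  have h1 : σ g a ∈ Ga.sc A 0 := mem_sc_zero (mem_of_eq (add_mem (sc_sub (h a ha)) ha)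
    (by simp [d0]))
  refine mem_of_eq (add_mem (sign_sub hχ (Or.inl rfl) h1) (h a ha)) ?_
  simp [d0, tw_apply]

variable [TopologicalSpace V]

theorem Lt.sc (h : Lt σ A n) (g : G) {x : V} (hx : x ∈ sc A j) : σ g x ∈ sc A j :=
  sc_map _ (h.st g) hx

theorem Lt.d0 (h : Lt σ A n) (g : G) {x : V} (hx : x ∈ A) : d0 σ x g ∈ A := sub_mem (h.st g x hx) hx

theorem Lt.d0_sc (h : Lt σ A n) (g : G) {x : V} (hx : x ∈ Ga.sc A j) : Ga.d0 σ x g ∈ Ga.sc A j :=
  sub_mem (h.sc g hx) hx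

theorem Lt.tw (h : Lt σ A n) (hχ : ∀ g, χ g = 1 ∨ χ g = -1) : Lt (tw σ χ) A n :=
  ⟨fun g a ha => sign_mem (hχ g) (h.st g a ha), h.opn, h.fin⟩

theorem Lt.mono (h : Lt σ A n) {n' : ℕ} (k : n ≤ n') : Lt σ A n' :=
  ⟨h.st, h.opn, h.fin.trans (by exact_mod_cast k)⟩

/-- two twists agree modulo two -/
theorem Lt.tw_sub (h : Lt σ A n) {g : G} (hχ : χ g = 1 ∨ χ g = -1) (hχ' : χ' g = 1 ∨ χ' g = -1)
    {x : V} (hx : x ∈ Ga.sc A j) : Ga.tw σ χ g x - Ga.tw σ χ' g x ∈ Ga.sc A (j + 1) :=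
  sign_sub hχ hχ' (h.sc g hx)

theorem Tr.mul (l : Lt σ A n) {g h : G} (hg : Tr σ A g) (hh : Tr σ A h) : Tr σ A (g * h) :=
  fun a ha => by rw [d0_mul]; exact add_mem (hg a ha) (l.sc g (hh a ha))

theorem Tr.inv (l : Lt σ A n) {g : G} (hg : Tr σ A g) : Tr σ A g⁻¹ := fun a ha =>
  mem_of_eq (neg_mem (l.sc g⁻¹ (hg a ha))) (by simp [d0, rep_inv])

theorem Tr.conj (l : Lt σ A n) {g : G} (hg : Tr σ A g) (h : G) : Tr σ A (h * g * h⁻¹) := fun a ha =>
  mem_of_eq (l.sc h (hg _ (l.st h⁻¹ a ha))) (by simp [d0, rep_mul, rep_inv'])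

theorem Tr.cm (l : Lt σ A n) {g : G} (hg : Tr σ A g) (h : G) : Tr σ A (cm h g) :=
  (hg.conj l h).mul l (hg.inv l)

variable [TopologicalSpace G]

theorem Ct.app (h : Ct σ) {X : Type} [TopologicalSpace X] {f : X → G} {x : X → V} {s : Set X}
    (hf : ContinuousOn f s) (hx : ContinuousOn x s) : ContinuousOn (fun t => σ (f t) (x t)) s :=
  Continuous.comp_continuousOn' (g := fun p : G × V => σ p.1 p.2) h (hf.prodMk hx)

theorem Pr.app (h : Pr cy σ e A B) {X : Type} [TopologicalSpace X] {x x' : X → V} {s : Set X}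
    (hx : ContinuousOn x s) (hx' : ContinuousOn x' s) : ContinuousOn (fun t => e (x t) (x' t)) s :=
  Continuous.comp_continuousOn' (g := fun p : V × V => e p.1 p.2) h.cont (hx.prodMk hx')

theorem on_fst {X : Type} [TopologicalSpace X] {f : G → X} (h : ContinuousOn f D) :
    ContinuousOn (fun p : G × G => f p.1) ((D : Set G) ×ˢ (D : Set G)) :=
  h.comp continuousOn_fst fun _ hp => hp.1

theorem on_snd {X : Type} [TopologicalSpace X] {f : G → X} (h : ContinuousOn f D) :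
    ContinuousOn (fun p : G × G => f p.2) ((D : Set G) ×ˢ (D : Set G)) :=
  h.comp continuousOn_snd fun _ hp => hp.2

theorem on_top {X : Type} [TopologicalSpace X] {f : G → X} :
    ContinuousOn f (⊤ : Subgroup G) ↔ Continuous f := by
  rw [Subgroup.coe_top, continuousOn_univ]

theorem Cj.continuous (h : Cj ⊤ σ A j ψ) : Continuous ψ := on_top.1 h.cont

theorem Cj.res (h : Cj D σ A j ψ) (k : D' ≤ D) : Cj D' σ A j ψ :=
  ⟨h.cont.mono k, fun g hg => h.mem g (k hg), fun g hg g' hg' => h.coc g (k hg) g' (k hg')⟩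

theorem Cj.mono (h : Cj D σ A j ψ) (k : i ≤ j) : Cj D σ A i ψ :=
  ⟨h.cont, h.mem, fun g hg g' hg' => sc_up k (h.coc g hg g' hg')⟩

theorem Cj.congr {σ' : Representation K G V} (h : Cj D σ A j ψ) (k : ∀ g ∈ D, σ' g = σ g) :
    Cj D σ' A j ψ :=
  ⟨h.cont, h.mem, fun g hg g' hg' => by simpa only [d1, k g hg] using h.coc g hg g' hg'⟩

theorem Cj.one (h : Cj D σ A j ψ) : ψ 1 ∈ sc A j := by
  simpa [d1] using h.coc 1 (one_mem _) 1 (one_mem _)

theorem Cj.mul (h : Cj D σ A j ψ) {g k : G} (hg : g ∈ D) (hk : k ∈ D) :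
    ψ (g * k) - (ψ g + σ g (ψ k)) ∈ sc A j :=
  mem_of_eq (neg_mem (h.coc g hg k hk)) (by simp only [d1]; abel)

/-- right translation by an element with small value -/
theorem Cj.tr (h : Cj D σ A j ψ) (l : Lt σ A n) {g k : G} (hg : g ∈ D) (hk : k ∈ D)
    (h0 : ψ k ∈ sc A j) : ψ (g * k) - ψ g ∈ sc A j :=
  mem_of_eq (add_mem (h.mul hg hk) (l.sc g h0)) (by abel)

theorem cup_cont (c : Ct σ) (p : Pr cy σ e A B) (hψ : ContinuousOn ψ D) (hy : ContinuousOn y D) :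
    ContinuousOn (fun q : G × G => cup e σ ψ y q.1 q.2) ((D : Set G) ×ˢ (D : Set G)) :=
  p.app (on_fst hψ) (c.app continuousOn_fst (on_snd hy))

theorem Pr.tw (h : Pr cy σ e A B) (hχ : ∀ g, χ g = 1 ∨ χ g = -1) : Pr cy (tw σ χ) e A B :=
  ⟨tw_eqv h.eqv hχ, h.int, h.cont⟩

theorem B2.congr (h : B2 cy D z) (k : ∀ g ∈ D, ∀ g' ∈ D, z' g g' - z g g' ∈ O) : B2 cy D z' :=
  h.imp fun _ t => ⟨t.1, fun g hg g' hg' =>
    O_of_eq (add_mem (k g hg g' hg') (t.2 g hg g' hg')) (by ring)⟩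

theorem B2.of_eq (h : B2 cy D z) (k : ∀ g ∈ D, ∀ g' ∈ D, z' g g' = z g g') : B2 cy D z' :=
  h.congr fun g hg g' hg' => by rw [k g hg g' hg', sub_self]; exact zero_mem _

theorem B2.of_mem (k : ∀ g ∈ D, ∀ g' ∈ D, z g g' ∈ O) : B2 cy D z :=
  ⟨0, continuousOn_const, fun g hg g' hg' => by simpa [d2] using k g hg g' hg'⟩

theorem B2.d2 {θ : G → K} (h : ContinuousOn θ D) : B2 cy D (d2 cy θ) :=
  ⟨θ, h, fun _ _ _ _ => by rw [sub_self]; exact zero_mem _⟩

theorem B2.res (h : B2 cy D z) (k : D' ≤ D) : B2 cy D' z :=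
  h.imp fun _ t => ⟨t.1.mono k, fun g hg g' hg' => t.2 g (k hg) g' (k hg')⟩

theorem B2.add (h : B2 cy D z) (h' : B2 cy D z') : B2 cy D fun g k => z g k + z' g k := by
  obtain ⟨θ, a, b⟩ := h
  obtain ⟨θ', a', b'⟩ := h'
  exact ⟨θ + θ', a.add a', fun g hg k hk =>
    O_of_eq (add_mem (b g hg k hk) (b' g hg k hk)) (by simp only [Ga.d2, Pi.add_apply]; ring)⟩

theorem B2.mul (h : B2 cy D z) {c : K} (hc : c ∈ O) : B2 cy D fun g k => c * z g k := by
  obtain ⟨θ, a, b⟩ := h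
  exact ⟨fun g => c * θ g, continuousOn_const.mul a, fun g hg k hk =>
    O_of_eq (O_mul hc (b g hg k hk)) (by simp only [Ga.d2]; ring)⟩

theorem B2.neg (h : B2 cy D z) : B2 cy D fun g k => -z g k := by
  simpa using h.mul (neg_mem O_one)

theorem B2.sub (h : B2 cy D z) (h' : B2 cy D z') : B2 cy D fun g k => z g k - z' g k := by
  simpa [sub_eq_add_neg] using h.add h'.neg

theorem B2.sum {ι : Type} (s : Finset ι) {f : ι → G → G → K} (h : ∀ i ∈ s, B2 cy D (f i)) :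
    B2 cy D fun g k => ∑ i ∈ s, f i g k := by
  classical
  induction s using Finset.induction_on with
  | empty => exact B2.of_mem fun _ _ _ _ => by simp
  | insert a s ha ih =>
    simp only [sum_insert ha]
    exact (h a (mem_insert_self _ _)).add (ih fun i hi => h i (mem_insert_of_mem hi))

theorem Z2.res (h : Z2 cy D z) (k : D' ≤ D) : Z2 cy D' z :=
  ⟨h.cont.mono (Set.prod_mono k k), fun a ha b hb c hc => h.coc a (k ha) b (k hb) c (k hc)⟩

theorem Z2.add (h : Z2 cy D z) (h' : Z2 cy D z') : Z2 cy D fun g k => z g k + z' g k :=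
  ⟨h.cont.add h'.cont, fun a ha b hb c hc =>
    O_of_eq (add_mem (h.coc a ha b hb c hc) (h'.coc a ha b hb c hc)) (by simp only [d3]; ring)⟩

theorem Z2.sub (h : Z2 cy D z) (h' : Z2 cy D z') : Z2 cy D fun g k => z g k - z' g k :=
  ⟨h.cont.sub h'.cont, fun a ha b hb c hc =>
    O_of_eq (sub_mem (h.coc a ha b hb c hc) (h'.coc a ha b hb c hc)) (by simp only [d3]; ring)⟩

variable [IsTopologicalAddGroup V]

theorem Ct.d0 (h : Ct σ) (a : V) : Continuous (d0 σ a) :=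
  (continuousOn_univ.1 (h.app continuousOn_id continuousOn_const)).sub continuous_const

theorem Cj.d0 (c : Ct σ) {a : V} (h : ∀ g ∈ D, d0 σ a g ∈ A) : Cj D σ A j (d0 σ a) :=
  ⟨(c.d0 a).continuousOn, h, fun g _ k _ => by rw [d1_d0]; exact zero_mem _⟩

theorem Cj.zero : Cj D σ A j 0 :=
  ⟨continuousOn_const, fun _ _ => zero_mem _, fun g _ k _ => by simp [d1]⟩

theorem Cj.add (h : Cj D σ A j ψ) (h' : Cj D σ A j φ) : Cj D σ A j (ψ + φ) :=
  ⟨h.cont.add h'.cont, fun g hg => add_mem (h.mem g hg) (h'.mem g hg), fun g hg k hk => by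
    rw [d1_add]; exact add_mem (h.coc g hg k hk) (h'.coc g hg k hk)⟩

theorem Cj.sub (h : Cj D σ A j ψ) (h' : Cj D σ A j φ) : Cj D σ A j (ψ - φ) :=
  ⟨h.cont.sub h'.cont, fun g hg => sub_mem (h.mem g hg) (h'.mem g hg), fun g hg k hk => by
    rw [d1_sub]; exact sub_mem (h.coc g hg k hk) (h'.coc g hg k hk)⟩

variable [ContinuousSMul K V]

theorem Ct.tw (h : Ct σ) (hχ : Qc χ) : Ct (tw σ χ) :=
  (hχ.cont.comp continuous_fst).smul h

theorem Pm.tw (h : Pm cy σ e A B n) (hχ : Qc χ) : Pm cy (tw σ χ) e A B n :=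
  ⟨h.ct.tw hχ, h.la.tw hχ.sq, h.lb.tw hχ.sq, h.pr.tw hχ.sq⟩

theorem Lt.opn_sc (h : Lt σ A n) (j : ℕ) : IsOpen (Ga.sc A j : Set V) := sc_open h.opn

/-- division by a power of two -/
theorem Cj.div (c : ContinuousOn ψ D) (m : ∀ g ∈ D, ψ g ∈ sc A i)
    (h : ∀ g ∈ D, ∀ k ∈ D, d1 σ ψ g k ∈ sc A (j + i)) : Cj D σ A j (((2 : K) ^ i)⁻¹ • ψ) :=
  ⟨c.const_smul _, m, fun g hg k hk => by rw [d1_smul]; exact inv_mem_sc (h g hg k hk)⟩

theorem Cj.half (h : Cj D σ A (j + 1) ψ) (m : ∀ g ∈ D, ψ g ∈ sc A 1) :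
    Cj D σ A j ((2 : K)⁻¹ • ψ) := by
  simpa using Cj.div h.cont m h.coc

end coc

end Vale.Agent.P004S.Ga
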