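import Vale.Agent.P004S.G.Bas

/-!
# P004S, Galois half: elementary lemmas on local conditions and boxes (helper61)
-/

set_option linter.all false

noncomputable section

namespace Vale.Agent.P004S.Ga

open Finset Topology

section sel

variable {G : Type} [Group G] [TopologicalSpace G] {𝔞 : Ar G} {V : Type} [AddCommGroup V]
  [Module K V] [TopologicalSpace V] {s : Sy 𝔞 V} {v i j n : ℕ} {χ χ' : G →* K}
  {A : AddSubgroup V} {ψ φ : G → V} {T U T' U' : Finset ℕ}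

theorem Sy.ne_two (s : Sy 𝔞 V) {p : ℕ} (h : p ∉ s.S) : p ≠ 2 := fun e => h (e ▸ s.two)

theorem Lc.mono (h : Lc s v χ A j ψ) (k : i ≤ j) : Lc s v χ A i ψ :=
  h.imp fun _ t => ⟨t.1, fun g hg => sc_up k (t.2 g hg)⟩

theorem Lc.congr (h : Lc s v χ A j ψ) (k : ∀ g ∈ 𝔞.D v, φ g - ψ g ∈ sc A j) : Lc s v χ A j φ :=
  h.imp fun _ t => ⟨t.1, fun g hg => mem_of_eq (add_mem (k g hg) (t.2 g hg)) (by abel)⟩

theorem Lc.of_mem (k : ∀ g ∈ 𝔞.D v, ψ g ∈ sc A j) : Lc s v χ A j ψ :=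
  ⟨0, zero_mem _, fun g hg => by simpa using k g hg⟩

theorem Lc.of_d0 (hv : Pl v) (hχ : Qc χ) {a : V}
    (k : ∀ g ∈ 𝔞.D v, ψ g - d0 (tw s.ρ χ) a g ∈ sc A j) : Lc s v χ A j ψ :=
  ⟨_, s.cob v χ hv hχ a, k⟩

theorem Lc.d0 (hv : Pl v) (hχ : Qc χ) (a : V) : Lc s v χ A j (d0 (tw s.ρ χ) a) :=
  Lc.of_d0 hv hχ (a := a) fun _ _ => by rw [sub_self]; exact zero_mem _

theorem Lc.add (h : Lc s v χ A j ψ) (h' : Lc s v χ A j φ) : Lc s v χ A j (ψ + φ) := by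
  obtain ⟨l, a, b⟩ := h
  obtain ⟨l', a', b'⟩ := h'
  exact ⟨l + l', add_mem a a', fun g hg =>
    mem_of_eq (add_mem (b g hg) (b' g hg)) (by simp only [Pi.add_apply]; abel)⟩

theorem Lc.sign (h : Lc s v χ A j ψ) {ε : K} (hε : ε = 1 ∨ ε = -1) : Lc s v χ A j (ε • ψ) := by
  obtain ⟨l, a, b⟩ := h
  exact ⟨ε • l, Submodule.smul_mem _ _ a, fun g hg =>
    mem_of_eq (sign_mem hε (b g hg)) (by simp only [Pi.smul_apply, smul_sub])⟩

theorem Lc.neg (h : Lc s v χ A j ψ) : Lc s v χ A j (-ψ) := by simpa using h.sign (Or.inr rfl)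

theorem Lc.sub (h : Lc s v χ A j ψ) (h' : Lc s v χ A j φ) : Lc s v χ A j (ψ - φ) := by
  simpa [sub_eq_add_neg] using h.add h'.neg

theorem Lc.sum {ι : Type} (t : Finset ι) {f : ι → G → V} (h : ∀ a ∈ t, Lc s v χ A j (f a)) :
    Lc s v χ A j (∑ a ∈ t, f a) :=
  sum_induction f (Lc s v χ A j) (fun _ _ => Lc.add) (Lc.of_mem fun _ _ => zero_mem _) h

theorem Lc.div (h : Lc s v χ A (j + i) ψ) : Lc s v χ A j (((2 : K) ^ i)⁻¹ • ψ) := by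
  obtain ⟨l, a, b⟩ := h
  exact ⟨((2 : K) ^ i)⁻¹ • l, Submodule.smul_mem _ _ a, fun g hg =>
    mem_of_eq (inv_mem_sc (b g hg)) (by simp only [Pi.smul_apply, smul_sub])⟩

theorem Lc.half (h : Lc s v χ A (j + 1) ψ) : Lc s v χ A j ((2 : K)⁻¹ • ψ) := by
  simpa using h.div

theorem Lc.loc (h : Lc s v χ A j ψ) (hv : Pl v) (hχ : Qc χ) (hχ' : Qc χ')
    (k : ∀ g ∈ 𝔞.D v, χ g = χ' g) : Lc s v χ' A j ψ := by
  obtain ⟨l, a, b⟩ := h
  obtain ⟨l', a', b'⟩ := s.loc v χ χ' hv hχ hχ' k l a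
  exact ⟨l', a', fun g hg => b' g hg ▸ b g hg⟩

theorem Lc.out (h : Lc s v χ A j ψ) (hv : v.Prime) (hS : v ∉ s.S) (hχ : Qc χ) :
    ∃ a, ∀ g ∈ 𝔞.D v, ψ g - Ga.d0 (tw s.ρ χ) a g ∈ sc A j := by
  obtain ⟨l, a, b⟩ := h
  obtain ⟨c, e⟩ := s.out v χ hv hS hχ l a
  exact ⟨c, fun g hg => e g hg ▸ b g hg⟩

theorem Sel.mono (h : Sel s χ A j T U ψ) (k : i ≤ j) : Sel s χ A i T U ψ :=
  ⟨h.cj.mono k, fun p a b t c => sc_up k (h.ur p a b t c), fun v a b => (h.lc v a b).mono k⟩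

theorem Sel.sub_set (h : Sel s χ A j T U ψ) (k : T' ⊆ T) (k' : U ⊆ U') : Sel s χ A j T' U' ψ :=
  ⟨h.cj, fun p a b => h.ur p a fun c => b (k' c), fun v a => h.lc v (k a)⟩

theorem Sel.mem (h : Sel s χ A j T U ψ) (g : G) : ψ g ∈ A := h.cj.mem g trivial

theorem Sel.coc (h : Sel s χ A j T U ψ) (g k : G) : d1 (tw s.ρ χ) ψ g k ∈ sc A j :=
  h.cj.coc g trivial k trivial

theorem Sel.cont (h : Sel s χ A j T U ψ) : Continuous ψ := h.cj.continuous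

theorem Sel.on (h : Sel s χ A j T U ψ) (D : Subgroup G) : Cj D (tw s.ρ χ) A j ψ := h.cj.res le_top

/-- inertia acts through the character -/
theorem Sy.tw_I (s : Sy 𝔞 V) {p : ℕ} (hp : p.Prime) (hS : p ∉ s.S) {t : G} (ht : t ∈ 𝔞.I p)
    (x : V) : tw s.ρ χ t x = χ t • x := by
  rw [tw_apply, s.ur p hp hS t ht]; rfl

variable [IsTopologicalAddGroup V]

theorem Sel.add (h : Sel s χ A j T U ψ) (h' : Sel s χ A j T U φ) : Sel s χ A j T U (ψ + φ) :=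
  ⟨h.cj.add h'.cj, fun p a b t c => add_mem (h.ur p a b t c) (h'.ur p a b t c),
    fun v a b => (h.lc v a b).add (h'.lc v a b)⟩

theorem Sel.sub (h : Sel s χ A j T U ψ) (h' : Sel s χ A j T U φ) : Sel s χ A j T U (ψ - φ) :=
  ⟨h.cj.sub h'.cj, fun p a b t c => sub_mem (h.ur p a b t c) (h'.ur p a b t c),
    fun v a b => (h.lc v a b).sub (h'.lc v a b)⟩

theorem Sel.zero : Sel s χ A j T U 0 :=
  ⟨Cj.zero, fun _ _ _ _ _ => zero_mem _, fun _ _ _ => Lc.of_mem fun _ _ => zero_mem _⟩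

variable [ContinuousSMul K V]

theorem Sel.half (h : Sel s χ A (j + 1) T U ψ) (m : ∀ g, ψ g ∈ sc A 1) :
    Sel s χ A j T U ((2 : K)⁻¹ • ψ) :=
  ⟨h.cj.half fun g _ => m g, fun p a b t c => half_mem_sc (h.ur p a b t c),
    fun v a b => (h.lc v a b).half⟩

/-- coboundaries are Selmer cocycles -/
theorem Sel.d0 (c : Ct s.ρ) (hχ : Qc χ) (hS : s.S ⊆ U)
    (hU : ∀ p, p.Prime → p ∉ U → ∀ t ∈ 𝔞.I p, χ t = 1) {a : V} (h : ∀ g, d0 (tw s.ρ χ) a g ∈ A) :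
    Sel s χ A j T U (d0 (tw s.ρ χ) a) :=
  ⟨Cj.d0 (c.tw hχ) fun g _ => h g, fun p hp b t ht => by
    rw [Ga.d0, s.tw_I hp (fun k => b (hS k)) ht, hU p hp b t ht, one_smul, sub_self]
    exact zero_mem _, fun v _ b => Lc.d0 b hχ a⟩

end sel

section box

variable {G : Type} [Group G] [TopologicalSpace G] {𝔞 : Ar G} {V : Type} [AddCommGroup V]
  [Module K V] [TopologicalSpace V] {s : Sy 𝔞 V} {ι : Type} [DecidableEq ι] {d : Dat G ι}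
  {J w : Finset ι} {x x' y z : ι → ℕ} {i b : ι} {p : ℕ}

theorem cor_apply (J : Finset ι) (y z : ι → ℕ) (w : Finset ι) (i : ι) :
    cor J y z w i = if i ∈ w ∧ i ∈ J then z i else y i := by
  simp [cor, piecewise]

theorem cor_of_mem (h : i ∈ w) (h' : i ∈ J) : cor J y z w i = z i := by simp [cor_apply, h, h']

theorem cor_of_not (h : i ∉ w) : cor J y z w i = y i := by simp [cor_apply, h]

theorem cor_of_not' (h : i ∉ J) : cor J y z w i = y i := by simp [cor_apply, h]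

theorem cor_empty : cor J y z ∅ = y := funext fun _ => cor_of_not (notMem_empty _)

theorem cor_inter : cor J y z (w ∩ J) = cor J y z w := by rw [cor, cor, inter_assoc, inter_self]

theorem cor_sub (h : w ⊆ J) : cor J y z w = w.piecewise z y := by rw [cor, inter_eq_left.2 h]

theorem cor_face {J' : Finset ι} (h : w ⊆ J') (h' : J' ⊆ J) : cor J' y z w = cor J y z w := by
  rw [cor_sub h, cor_sub (h.trans h')]

theorem cor_top (h : ∀ i ∉ J, y i = z i) : cor J y z J = z := funext fun i => by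
  by_cases k : i ∈ J
  · exact cor_of_mem k k
  · rw [cor_of_not k, h i k]

theorem cor_congr {z' : ι → ℕ} (h : ∀ i ∈ J, z i = z' i) : cor J y z = cor J y z' :=
  funext fun w => funext fun i => by
    rw [cor_apply, cor_apply]
    split_ifs with k
    · exact h i k.2
    · rfl

theorem cor_insert_ne (h : i ≠ b) : cor J y z (insert b w) i = cor J y z w i := by
  simp [cor_apply, h]

theorem Dat.ch_apply (d : Dat G ι) (x : ι → ℕ) (g : G) :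
    d.ch 𝔞 x g = d.χ g * ∏ i ∈ d.I, 𝔞.κ (x i) g := by
  simp [Dat.ch]

theorem Dat.mem_sp : p ∈ d.sp x ↔ p ∈ d.T ∨ ∃ i ∈ d.I, x i = p := by simp [Dat.sp]

theorem Dat.T_sub (d : Dat G ι) (x : ι → ℕ) : d.T ⊆ d.sp x := subset_union_left

theorem Dat.sp_mem (hi : i ∈ d.I) : x i ∈ d.sp x := Dat.mem_sp.2 (Or.inr ⟨i, hi, rfl⟩)

theorem Dat.ch_qc (h : Qc d.χ) (x : ι → ℕ) : Qc (d.ch 𝔞 x) :=
  h.mul (Qc.prod _ fun _ _ => 𝔞.κ_qc _)

/-- a move in the directions `w` -/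
theorem Dat.ch_piecewise (hw : w ⊆ d.I) (y z : ι → ℕ) :
    d.ch 𝔞 (w.piecewise z y) = d.ch 𝔞 y * ∏ i ∈ w, 𝔞.κ (z i) * 𝔞.κ (y i) := by
  ext g
  rw [MonoidHom.mul_apply, Dat.ch_apply, Dat.ch_apply, MonoidHom.finset_prod_apply, mul_assoc,
    ← prod_sdiff hw, ← prod_sdiff hw (f := fun i => 𝔞.κ (y i) g), mul_assoc, ← prod_mul_distrib]
  refine congrArg _ (congrArg₂ _ (prod_congr rfl fun i hi => ?_) (prod_congr rfl fun i hi => ?_))
  · rw [piecewise_eq_of_notMem _ _ _ (mem_sdiff.1 hi).2]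
  · rw [piecewise_eq_of_mem _ _ _ hi, MonoidHom.mul_apply]
    linear_combination (-𝔞.κ (z i) g) * (𝔞.κ_qc (y i)).mul_self g

theorem Dat.ch_cor (hJ : J ⊆ d.I) (hw : w ⊆ J) (y z : ι → ℕ) :
    d.ch 𝔞 (cor J y z w) = d.ch 𝔞 y * ∏ i ∈ w, 𝔞.κ (z i) * 𝔞.κ (y i) := by
  rw [cor_sub hw, Dat.ch_piecewise (hw.trans hJ)]

theorem Dat.cu (h : Qc d.χ) (hJ : J ⊆ d.I) (y z : ι → ℕ) :
    Cu J fun w => d.ch 𝔞 (cor J y z w) :=
  ⟨fun _ => Dat.ch_qc h _, fun i => 𝔞.κ (z i) * 𝔞.κ (y i),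
    fun i => (𝔞.κ_qc _).mul (𝔞.κ_qc _), fun w hw => by
      beta_reduce; rw [cor_empty, Dat.ch_cor hJ hw]⟩

/-- one move -/
theorem Dat.ch_move (hi : i ∈ d.I) (h : ∀ j, j ≠ i → x j = x' j) :
    d.ch 𝔞 x' = d.ch 𝔞 x * (𝔞.κ (x' i) * 𝔞.κ (x i)) := by
  have : x' = ({i} : Finset ι).piecewise x' x := funext fun j => by
    by_cases k : j = i
    · simp [k]
    · simp [piecewise, k, h j k]
  rw [this, Dat.ch_piecewise (singleton_subset_iff.2 hi), prod_singleton, ← this]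

theorem Dat.ch_insert (hJ : J ⊆ d.I) (hb : b ∈ J) (hw : b ∉ w) :
    d.ch 𝔞 (cor J y z (insert b w)) = d.ch 𝔞 (cor J y z w) * (𝔞.κ (z b) * 𝔞.κ (y b)) := by
  rw [Dat.ch_move (hJ hb) (x := cor J y z w) fun j hj => (cor_insert_ne hj).symm,
    cor_of_mem (mem_insert_self _ _) hb, cor_of_not hw]

namespace Dat.Ok

theorem notS (h : d.Ok s) (k : p ∉ d.T) : p ∉ s.S := fun a => k (h.sub a)

theorem ne_two (h : d.Ok s) (k : p ∉ d.T) : p ≠ 2 := s.ne_two (h.notS k)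

theorem ch_qc (h : d.Ok s) (x : ι → ℕ) : Qc (d.ch 𝔞 x) := Dat.ch_qc h.qc x

theorem S_sub (h : d.Ok s) (x : ι → ℕ) : s.S ⊆ d.sp x := h.sub.trans (d.T_sub x)

/-- primes in different directions are different -/
theorem ne (h : d.Ok s) {j : ι} {q : ℕ} (hi : i ∈ d.I) (hj : j ∈ d.I) (k : i ≠ j) (hp : p ∈ d.X i)
    (hq : q ∈ d.X j) : p ≠ q := fun e => disjoint_left.1 (h.dj i hi j hj k) hp (e ▸ hq)

/-- a prime of the direction `i` divides the point if and only if it is the coordinate -/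
theorem notMem_sp (h : d.Ok s) (hx : ∀ j, x j ∈ d.X j) (hi : i ∈ d.I) (hp : p ∈ d.X i)
    (k : x i ≠ p) : p ∉ d.sp x := fun m => by
  rcases Dat.mem_sp.1 m with m | ⟨j, hj, e⟩
  · exact (h.pr i hi p hp).2 m
  · by_cases c : j = i
    · exact k (c ▸ e)
    · exact h.ne hj hi c (hx j) hp e

theorem ch_ur (h : d.Ok s) (x : ι → ℕ) (hp : p.Prime) (k : p ∉ d.sp x) {t : G} (ht : t ∈ 𝔞.I p) :
    d.ch 𝔞 x t = 1 := by
  have k1 : p ∉ d.T := fun a => k (d.T_sub x a)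
  rw [Dat.ch_apply, h.ur p hp k1 t ht, one_mul]
  exact prod_eq_one fun i hi => 𝔞.κ_ur _ p hp (h.ne_two k1) (fun e => k (e ▸ Dat.sp_mem hi)) t ht

theorem ch_I (h : d.Ok s) (hx : ∀ j, x j ∈ d.X j) (hi : i ∈ d.I) {t : G} (ht : t ∈ 𝔞.I (x i)) :
    d.ch 𝔞 x t = 𝔞.κ (x i) t := by
  obtain ⟨a, c⟩ := h.pr i hi _ (hx i)
  rw [Dat.ch_apply, h.ur _ a c t ht, one_mul, prod_eq_single_of_mem i hi]
  exact fun j hj k => 𝔞.κ_ur _ _ a (h.ne_two c) (h.ne hi hj k.symm (hx i) (hx j)) t ht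

theorem ch_τ (h : d.Ok s) (hx : ∀ j, x j ∈ d.X j) (hi : i ∈ d.I) : d.ch 𝔞 x (𝔞.τ (x i)) = -1 := by
  obtain ⟨a, c⟩ := h.pr i hi _ (hx i)
  rw [h.ch_I hx hi (𝔞.τ_mem _), 𝔞.κ_τ _ a (h.ne_two c)]

theorem ch_ram (h : d.Ok s) (hx : ∀ j, x j ∈ d.X j) (hp : p ∈ d.sp x) (k : p ∉ d.T) :
    d.ch 𝔞 x (𝔞.τ p) = -1 := by
  obtain ⟨i, hi, rfl⟩ := (Dat.mem_sp.1 hp).resolve_left k
  exact h.ch_τ hx hi

/-- two primes of one direction have the same character at the places of `T` -/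
theorem κ_T (h : d.Ok s) {q v : ℕ} (hi : i ∈ d.I) (hp : p ∈ d.X i) (hq : q ∈ d.X i) (hv : v ∈ d.T)
    (pl : Pl v) {g : G} (hg : g ∈ 𝔞.D v) : 𝔞.κ p g = 𝔞.κ q g :=
  have a := h.pr i hi p hp
  have c := h.pr i hi q hq
  𝔞.qr p q v a.1 c.1 (h.ne_two a.2) (h.ne_two c.2) pl (fun e => a.2 (e ▸ hv)) (fun e => c.2 (e ▸ hv))
    (h.same i hi p hp q hq 0 (h.sub s.zero)) (h.same i hi p hp q hq 2 (h.sub s.two))
    (h.same i hi p hp q hq v hv) g hg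

theorem ch_T (h : d.Ok s) {v : ℕ} (hx : ∀ j, x j ∈ d.X j) (hx' : ∀ j, x' j ∈ d.X j) (hv : v ∈ d.T)
    (pl : Pl v) {g : G} (hg : g ∈ 𝔞.D v) : d.ch 𝔞 x g = d.ch 𝔞 x' g := by
  rw [Dat.ch_apply, Dat.ch_apply]
  exact congrArg _ (prod_congr rfl fun i hi => h.κ_T hi (hx i) (hx' i) hv pl hg)

/-- two points with a common coordinate `j`: the characters of the direction `i` agree at it -/
theorem κ_pt (h : d.Ok s) {j : ι} (hx : d.Pt 𝔞 x) (hx' : d.Pt 𝔞 x') (hi : i ∈ d.I) (hj : j ∈ d.I)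
    (k : i ≠ j) (e : x j = x' j) {g : G} (hg : g ∈ 𝔞.D (x j)) : 𝔞.κ (x i) g = 𝔞.κ (x' i) g :=
  have a := h.pr i hi _ (hx.mem i)
  have c := h.pr i hi _ (hx'.mem i)
  𝔞.qr _ _ _ a.1 c.1 (h.ne_two a.2) (h.ne_two c.2) (Or.inr (h.pr j hj _ (hx.mem j)).1)
    (h.ne hi hj k (hx.mem i) (hx.mem j)) (h.ne hi hj k (hx'.mem i) (hx.mem j))
    (h.same i hi _ (hx.mem i) _ (hx'.mem i) 0 (h.sub s.zero))
    (h.same i hi _ (hx.mem i) _ (hx'.mem i) 2 (h.sub s.two))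
    (by rw [hx.sym j hj i hi k.symm, e, hx'.sym j hj i hi k.symm]) g hg

/-- two points with a common coordinate `j` have the same character at it -/
theorem ch_pt (h : d.Ok s) {j : ι} (hx : d.Pt 𝔞 x) (hx' : d.Pt 𝔞 x') (hj : j ∈ d.I)
    (e : x j = x' j) {g : G} (hg : g ∈ 𝔞.D (x j)) : d.ch 𝔞 x g = d.ch 𝔞 x' g := by
  rw [Dat.ch_apply, Dat.ch_apply]
  refine congrArg _ (prod_congr rfl fun i hi => ?_)
  by_cases k : i = j
  · rw [k, e]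
  · exact h.κ_pt hx hx' hi hj k e hg

end Dat.Ok

theorem fσ_apply (d : Dat G ι) (s : Sy 𝔞 V) (c : Finset ι → ι → ℕ) (g : G) (f : Finset ι → V)
    (w : Finset ι) : d.fσ s c g f w = tw s.ρ (d.ch 𝔞 (c w)) g (f w) := rfl

theorem d0_fσ (d : Dat G ι) (s : Sy 𝔞 V) (c : Finset ι → ι → ℕ) (g : G) (f : Finset ι → V)
    (w : Finset ι) : d0 (d.fσ s c) f g w = d0 (tw s.ρ (d.ch 𝔞 (c w))) (f w) g := rfl

theorem d1_fσ (d : Dat G ι) (s : Sy 𝔞 V) (c : Finset ι → ι → ℕ) (ψ : G → Finset ι → V) (g h : G)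
    (w : Finset ι) : d1 (d.fσ s c) ψ g h w = d1 (tw s.ρ (d.ch 𝔞 (c w))) (fun k => ψ k w) g h := rfl

end box

end Vale.Agent.P004S.Ga
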