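import Vale.Agent.P004S.G.St

/-!
# P004S, Galois half: cancellation in the last direction
-/

set_option linter.all false

noncomputable section

namespace Vale.Agent.P004S.Ga

open Finset
open scoped Classical

namespace Canc

section

variable {G : Type} [Group G] {V : Type} [AddCommGroup V] [Module K V] {A B : AddSubgroup V}
  {σ : Representation K G V}

theorem sc1 {x : V} : x ∈ sc A 1 ↔ ∃ a ∈ A, x = a + a :=
  ⟨fun h => ⟨_, h, by rw [← add_smul]; norm_num⟩, by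
    rintro ⟨a, h, rfl⟩
    rwa [mem_sc, ← two_smul K, smul_smul, pow_one, inv_mul_cancel₀ two_ne_zero, one_smul]⟩

theorem sc1_le {x : V} (h : x ∈ sc A 1) : x ∈ A := by
  obtain ⟨a, k, rfl⟩ := sc1.1 h
  exact add_mem k k

theorem sc_le : ∀ (m : ℕ) {x : V}, x ∈ sc A (m + 1) → x ∈ sc A 1
  | 0, _, h => h
  | m + 1, x, h => sc_le m (by
      rw [mem_sc] at h ⊢
      convert add_mem h h using 1
      rw [← add_smul, pow_succ _ (m + 1)]
      congr 1
      field_simp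
      norm_num)

theorem sc_st (h : ∀ g, ∀ a ∈ A, σ g a ∈ A) (g : G) {x : V} (hx : x ∈ sc A 1) : σ g x ∈ sc A 1 := by
  rw [mem_sc, ← map_smul]; exact h g _ hx

theorem e_cg {e : V →ₗ[K] V →ₗ[K] K} (h : ∀ a ∈ A, ∀ b ∈ B, 2 * e a b ∈ O) {x x' y y' : V}
    (hx : x ∈ A) (hy : y' ∈ B) (h1 : x - x' ∈ sc A 1) (h2 : y - y' ∈ sc B 1) :
    e x y - e x' y' ∈ O := by
  obtain ⟨a, ha, k1⟩ := sc1.1 h1
  obtain ⟨b, hb, k2⟩ := sc1.1 h2
  convert add_mem (h x hx b hb) (h a ha y' hy) using 1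
  rw [sub_eq_iff_eq_add.1 k2, ← sub_sub_self x x', k1]
  simp only [map_add, map_sub, LinearMap.add_apply, LinearMap.sub_apply]
  ring

theorem mon_iff {W : Subgroup G} {P : G → Prop} (h : Mon W P) {t : G} (ht : t ∈ W) (g : G) :
    P (g * t) ↔ P g :=
  ⟨h _ _ ⟨1, 1, t⁻¹, inv_mem ht, by simp⟩, h _ _ ⟨1, 1, t, ht, by simp⟩⟩

theorem cm_l {W : Subgroup G} (hW : W.Normal) {a : G} (h : a ∈ W) (b : G) : cm a b ∈ W := by
  rw [cm, mul_assoc, mul_assoc, ← mul_assoc b]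
  simpa using mul_mem h (hW.conj_mem _ (inv_mem h) b)

theorem cm_r {W : Subgroup G} (hW : W.Normal) (a : G) {b : G} (h : b ∈ W) : cm a b ∈ W :=
  mul_mem (hW.conj_mem _ h a) (inv_mem h)

theorem AA_zero {ι : Type} {J : Finset ι} {f : Finset ι → V} (h : ∀ w ⊆ J, f w = 0) :
    f ∈ sc (AA J A) 1 := fun T hT => by
  rw [Dl, sum_eq_zero fun w hw => by simp [h w ((mem_powerset.1 hw).trans hT)]]
  exact zero_mem _

/-- the function supported on the corners above `T` -/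
def Ep {ι : Type} (T : Finset ι) (f : Finset ι → V) (w : Finset ι) : V :=
  if T ⊆ w then (-2 : K) ^ T.card • f w else 0

theorem pc_Ep {ι : Type} (J : Finset ι) (e : V →ₗ[K] V →ₗ[K] K) (f f' : Finset ι → V) :
    pc J e f (Ep J f') = e (f J) (f' J) ∧ pc J e (Ep J f) f' = e (f J) (f' J) := by
  have : ((2 : K) ^ J.card)⁻¹ * (-1) ^ J.card * (-2) ^ J.card = 1 := by
    rw [mul_assoc, ← mul_pow, inv_mul_eq_one₀ (pow_ne_zero _ two_ne_zero)]; norm_num
  constructor <;> rw [pc_apply, sum_eq_single J (fun w hw k => by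
    simp [Ep, mt (Subset.antisymm (mem_powerset.1 hw)) k]) (by simp)] <;> simp [Ep] <;>
    linear_combination e (f J) (f' J) * this

end

variable {G : Type} [Group G] [TopologicalSpace G] {𝔞 : Ar G} {V : Type} [AddCommGroup V]
  [Module K V] [TopologicalSpace V] {s : Sy 𝔞 V} {ι : Type} [DecidableEq ι] {d : Dat G ι}

theorem ne2 (h : d.Ok s) {p : ℕ} (hp : p ∉ d.T) : p ≠ 2 := fun e => hp (e ▸ h.sub s.two)

theorem ka (h : d.Ok s) {p : ℕ} (hp : p.Prime) (hT : p ∉ d.T) (q : ℕ) :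
    𝔞.κ q (𝔞.τ p) = if q = p then -1 else 1 := by
  split_ifs with e
  · exact e ▸ 𝔞.κ_τ p hp (ne2 h hT)
  · exact 𝔞.κ_ur q p hp (ne2 h hT) (Ne.symm e) _ (𝔞.τ_mem p)

theorem rt (h : d.Ok s) {p : ℕ} (hp : p.Prime) (hT : p ∉ d.T) : s.ρ (𝔞.τ p) = 1 :=
  s.ur p hp (mt (h.sub ·) hT) _ (𝔞.τ_mem p)

theorem ch_sq (h : d.Ok s) (x : ι → ℕ) (g : G) : d.ch 𝔞 x g = 1 ∨ d.ch 𝔞 x g = -1 := by
  rw [← sq_eq_one_iff, Dat.ch, MonoidHom.mul_apply, MonoidHom.finsetProd_apply, mul_pow,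
    ← prod_pow, sq_eq_one_iff.2 (h.qc.sq g), prod_eq_one fun i _ => sq_eq_one_iff.2
      ((𝔞.κ_qc _).sq g), mul_one]

theorem vh_mul (h : d.Ok s) {A : AddSubgroup V} {n m : ℕ} {vh : G → V} {lf : (ι → ℕ) → G → V}
    {Y : Set (ι → ℕ)} (hA : Lt s.ρ A n) (hm : d.Mo s A m vh lf Y) {x : ι → ℕ} (hx : x ∈ Y) {p : ℕ}
    (hp : p.Prime) (hT : p ∉ d.T) (g : G) : vh (g * 𝔞.τ p) - vh g ∈ sc A 1 := by
  have k := hm.lft x hx
  have k1 := sc_st hA.st g (add_mem (k.eq (𝔞.τ p)) (hm.ur p hp hT))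
  rw [sub_add_cancel] at k1
  have k2 : tw s.ρ (d.ch 𝔞 x) g (lf x (𝔞.τ p)) ∈ sc A 1 := by
    rcases ch_sq h x g with e | e <;> simpa [tw_apply, e] using k1
  convert add_mem (sub_mem (sub_mem k2 (sc_le m (k.sel.cj.coc g trivial (𝔞.τ p) trivial)))
    (k.eq (g * 𝔞.τ p))) (k.eq g) using 1
  rw [d1]
  abel

theorem adj (h : d.Ok s) (R : G → G → Prop) (h0 : ∀ g, R g g) (P : Finset ℕ)
    (hP : ∀ p ∈ P, p.Prime ∧ p ∉ d.T ∧ ∀ g g', R g g' → R g (g' * 𝔞.τ p)) (g : G) :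
    ∃ g', R g g' ∧ ∀ p ∈ P, 𝔞.κ p g' = 1 := by
  induction P using Finset.induction_on with
  | empty => exact ⟨g, h0 g, by simp⟩
  | insert p P hp ih =>
    obtain ⟨g', k1, k2⟩ := ih fun q hq => hP q (mem_insert_of_mem hq)
    obtain ⟨k3, k4, k5⟩ := hP p (mem_insert_self _ _)
    rcases (𝔞.κ_qc p).sq g' with e | e
    · exact ⟨g', k1, forall_mem_insert _ _ _ |>.2 ⟨e, k2⟩⟩
    · refine ⟨_, k5 _ _ k1, forall_mem_insert _ _ _ |>.2 ⟨by simp [e, ka h k3 k4], fun q hq => ?_⟩⟩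
      rw [map_mul, k2 q hq, ka h k3 k4, if_neg (ne_of_mem_of_not_mem hq hp), mul_one]

theorem cor_in {J : Finset ι} (y z : ι → ℕ) {w : Finset ι} (hw : w ⊆ J) (i : ι) :
    cor J y z w i = if i ∈ w then z i else y i := by
  rw [cor, inter_eq_left.2 hw, piecewise]

theorem chain (H : HEIS 𝔞 (Finset ι → V)) {σ : Representation K G (Finset ι → V)}
    {A : AddSubgroup V} {J : Finset ι} {n : ℕ} {v : G → Finset ι → V} (hA : Lt σ (AA J A) n)
    (hv : Cj ⊤ σ (AA J A) 1 v) {t r b : G} {T : Finset ι} {i : ι} (hi : i ∉ T)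
    (ht : ∀ f, ∀ w ⊆ J, σ t f w = if i ∈ w then -f w else f w) (hr : Tr σ (AA J A) r)
    (h : v r - Ep T (v b) ∈ sc (AA J A) 1) :
    v (cm t r) - Ep (insert i T) (v b) ∈ sc (AA J A) 1 := by
  have k : d0 σ (Ep T (v b)) t - Ep (insert i T) (v b) ∈ sc (AA J A) 1 := AA_zero fun w hw => by
    simp only [d0, Pi.sub_apply, ht _ w hw, Ep, insert_subset_iff, card_insert_of_notMem hi]
    by_cases e : i ∈ w <;> by_cases e' : T ⊆ w <;> simp [e, e']
    module
  convert add_mem (add_mem (H.cm1 σ _ n v t r hA hv hr).2 (sub_mem (sc_st hA.st t h) h)) k using 1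
  simp only [d0, map_sub]
  abel

end Canc

open Canc

variable {G : Type} [Group G] [TopologicalSpace G] {𝔞 : Ar G} {V : Type} [AddCommGroup V]
  [Module K V] [TopologicalSpace V] (s : Sy 𝔞 V) (ι : Type) [DecidableEq ι]

/-- **cancellation** -/
theorem canc (H : HEIS 𝔞 (Finset ι → V)) (C : CUM 𝔞 V ι) : CANC s ι := by
  intro d A B n m vh uh la lb J b N Y y x x' η Z n' c' δ ok pm hJ hb hbJ hx mo fd nd hZ hn hc can
  have f0 := fun l => fd l ∅ (empty_subset J)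
  simp only [piecewise_empty] at f0
  have my : ∀ l i, y l i ∈ d.X i := fun l i => by
    simpa [cor_in] using ((mo l).1.pt _ ((f0 l).2.1 ∅ (empty_subset J))).mem i
  have mz : ∀ ω ⊆ J, ∀ i ∈ J, ω.piecewise x' x i ∈ d.X i := fun ω hω i hi => by
    simpa [cor_in, hi] using ((mo 0).1.pt _ ((fd 0 ω hω).2.1 J subset_rfl)).mem i
  have mx : ∀ i ∈ J, x i ∈ d.X i := by simpa using mz ∅ (empty_subset J)
  have px := fun i hi => ok.pr i (hJ hi) _ (mx i hi)
  have ne : ∀ i ∈ J, ∀ j ∈ d.I, ∀ q ∈ d.X j, j ≠ i → q ≠ x i := fun i hi j hj q hq k e =>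
    disjoint_left.1 (ok.dj j hj i (hJ hi) k) hq (e ▸ mx i hi)
  choose W w1 w2 w3 w4 w5 using fun (k : J.powerset × Fin (N + 1)) =>
    H.ker _ _ _ _ _ _ _ _ (fd k.2 k.1 (mem_powerset.1 k.1.2)).2.2.hs
  -- the two elements
  obtain ⟨g, h, g1, g2, h1, h2, nd⟩ := nd
  have ad : ∀ g, Tr s.ρ A g → Tr s.ρ B g → ∃ a, (Tr s.ρ A a ∧ Tr s.ρ B a) ∧
      (vh a - vh g ∈ sc A 1 ∧ uh a - uh g ∈ sc B 1) ∧ ∀ l,
        Tr (d.fσ s (cor J (y l) x)) (AA J A) a ∧ Tr (d.fσ s (cor J (y l) x)) (AA J B) a := by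
    intro g g1 g2
    obtain ⟨a, ⟨k1, k2⟩, k3⟩ := adj ok (fun g a => s.ρ a = s.ρ g ∧ vh a - vh g ∈ sc A 1 ∧
      uh a - uh g ∈ sc B 1) (by simp) (J.image x ∪ univ.biUnion fun l => J.image (y l))
      (fun p hp => by
        have k : p.Prime ∧ p ∉ d.T := by
          simp only [mem_union, mem_image, mem_biUnion] at hp
          rcases hp with ⟨i, hi, rfl⟩ | ⟨l, -, i, hi, rfl⟩
          exacts [px i hi, ok.pr i (hJ hi) _ (my l i)]
        have k0 := (f0 0).2.1 ∅ (empty_subset J)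
        exact ⟨k.1, k.2, fun g a e => ⟨by rw [map_mul, rt ok k.1 k.2, mul_one, e.1], by
          simpa using add_mem (vh_mul ok pm.la (mo 0).1 k0 k.1 k.2 a) e.2.1, by
          simpa using add_mem (vh_mul ok pm.lb (mo 0).2 k0 k.1 k.2 a) e.2.2⟩⟩) g
    have k4 : Tr s.ρ A a ∧ Tr s.ρ B a := by simpa only [Tr, d0, k1] using And.intro g1 g2
    have k5 : ∀ l, ∀ w ⊆ J, d.ch 𝔞 (cor J (y l) x w) a = d.ch 𝔞 (cor J (y l) x ∅) a := by
      intro l w hw
      simp only [Dat.ch, MonoidHom.mul_apply, MonoidHom.finsetProd_apply, cor_in _ _ hw,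
        cor_in _ _ (empty_subset J), notMem_empty, if_false]
      refine congrArg _ (prod_congr rfl fun i _ => ?_)
      split_ifs with e
      · rw [k3 _ (mem_union_left _ (mem_image_of_mem x (hw e))), k3 _ (mem_union_right _
          (mem_biUnion.2 ⟨l, mem_univ l, mem_image_of_mem _ (hw e)⟩))]
      · rfl
    exact ⟨a, k4, k2, fun l => ⟨C.tr _ _ _ _ _ k4.1 (ch_sq ok _ a) (k5 l),
      C.tr _ _ _ _ _ k4.2 (ch_sq ok _ a) (k5 l)⟩⟩
  obtain ⟨a, a1, a2, a3⟩ := ad g g1 g2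
  obtain ⟨c, c1, c2, c3⟩ := ad h h1 h2
  have hs := fun l => (f0 l).2.2.hs
  have ac : ∀ i ∈ J, ∀ f, ∀ w ⊆ J, d.fσ s (cor J (y 0) x) (𝔞.τ (x i)) f w =
      if i ∈ w then -f w else f w := fun i hi f w hw => by
    rw [Dat.fσ, cu_apply, tw_apply, rt ok (px i hi).1 (px i hi).2, Dat.ch, MonoidHom.mul_apply,
      ok.ur _ (px i hi).1 (px i hi).2 _ (𝔞.τ_mem _), MonoidHom.finsetProd_apply,
      prod_eq_single i (fun j hj k => by
        rw [ka ok (px i hi).1 (px i hi).2, if_neg (ne i hi j hj _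
          (((mo 0).1.pt _ ((f0 0).2.1 w hw)).mem j) k)]) fun k => absurd (hJ hi) k,
      ka ok (px i hi).1 (px i hi).2, cor_in _ _ hw]
    by_cases e : i ∈ w <;> simp [e, ((f0 0).1 i hi).symm]
  have ex : ∀ T ⊆ J, ∃ r, (Tr s.ρ A r ∧ Tr s.ρ B r) ∧ (∀ l,
      Tr (d.fσ s (cor J (y l) x)) (AA J A) r ∧ Tr (d.fσ s (cor J (y l) x)) (AA J B) r) ∧
      (∀ i ∈ T, ∀ k, 𝔞.τ (x i) ∈ W k → r ∈ W k) ∧
      fv la (cor J (y 0) x) r - Ep T (fv la (cor J (y 0) x) c) ∈ sc (AA J A) 1 ∧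
      fv lb (cor J (y 0) x) r - Ep T (fv lb (cor J (y 0) x) c) ∈ sc (AA J B) 1 := by
    intro T
    induction T using Finset.induction_on with
    | empty => exact fun _ => ⟨c, c1, c3, by simp, AA_zero (by simp [Ep]), AA_zero (by simp [Ep])⟩
    | insert i T hi ih =>
      intro hT
      obtain ⟨r, k1, k2, k3, k4, k5⟩ := ih ((subset_insert i T).trans hT)
      have hj := hT (mem_insert_self i T)
      have k6 : s.ρ (cm (𝔞.τ (x i)) r) = 1 := by
        have := rt ok (px i hj).1 (px i hj).2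
        rw [← MonoidHom.mem_ker] at this ⊢
        exact cm_l inferInstance this r
      exact ⟨cm (𝔞.τ (x i)) r, by simp [Tr, d0, k6],
        fun l => ⟨(H.cm1 _ _ _ _ _ r (hs l).pm.la (hs l).cv (k2 l).1).1,
          (H.cm1 _ _ _ _ _ r (hs l).pm.lb (hs l).cu (k2 l).2).1⟩,
        forall_mem_insert _ _ _ |>.2 ⟨fun k e => cm_l (w2 k).nrm e r,
          fun j hj k e => cm_r (w2 k).nrm _ (k3 j hj k e)⟩,
        chain H (hs 0).pm.la (hs 0).cv hi (ac i hj) (k2 0).1 k4,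
        chain H (hs 0).pm.lb (hs 0).cu hi (ac i hj) (k2 0).2 k5⟩
  obtain ⟨r, r1, r2, r3, r4, r5⟩ := ex J subset_rfl
  have t1 := fun l => H.cm1 _ _ _ _ a r (hs l).pm.la (hs l).cv (r2 l).1
  have t2 := fun l => H.cm1 _ _ _ _ a r (hs l).pm.lb (hs l).cu (r2 l).2
  have t3 := fun l => add_mem (t1 l).2 ((a3 l).1 _ ((hs l).cv.mem r trivial))
  have t4 := fun l => add_mem (t2 l).2 ((a3 l).2 _ ((hs l).cu.mem r trivial))
  simp only [sub_add_cancel] at t3 t4
  have t5 : ∀ g l, d.Cc s ι A B la lb J (cor J (y l) x) (g * cm a r) ↔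
      d.Cc s ι A B la lb J (cor J (y l) x) g := fun g l =>
    and_congr (H.cv _ _ _ _ _ g (hs l).pm.la (hs l).cv (t1 l).1 (t3 l))
      (H.cv _ _ _ _ _ g (hs l).pm.lb (hs l).cu (t2 l).1 (t4 l))
  have t6 : η ∅ 0 (cm a r) ∉ O := fun k => nd (by
    have k0 := (f0 0).2.1 J subset_rfl
    have ea := ((mo 0).1.lft _ k0).eq
    have eb := ((mo 0).2.lft _ k0).eq
    have ma := fun g => ((mo 0).1.lft _ k0).sel.cj.mem g trivial
    have mb : ∀ {g g'}, uh g - uh g' ∈ sc B 1 → uh g' ∈ B := fun {g g'} e => by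
      simpa using sub_mem (sub_mem (((mo 0).2.lft _ k0).sel.cj.mem g trivial) (sc1_le (eb g)))
        (sc1_le e)
    have k1 := H.cm2 _ _ _ _ _ _ _ _ a r (hs 0) (a3 0).1 (a3 0).2 (r2 0).1 (r2 0).2
    have k2 := e_cg (hs 0).pm.pr.int ((hs 0).cv.mem a trivial) (by
      simpa using sub_mem ((hs 0).cu.mem r trivial) (sc1_le r5)) (x' := _) (by
        rw [sub_self]; exact zero_mem _) r5
    have k3 := e_cg (hs 0).pm.pr.int ((hs 0).cv.mem r trivial) ((hs 0).cu.mem a trivial) r4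
      (by rw [sub_self]; exact zero_mem _)
    rw [(pc_Ep ..).1] at k2
    rw [(pc_Ep ..).2] at k3
    have k4 := e_cg pm.pr.int (ma a) (mb c2.2) (sub_add_sub_cancel _ _ (vh g) ▸ add_mem (ea a) a2.1)
      (sub_add_sub_cancel _ _ (uh h) ▸ add_mem (eb c) c2.2)
    have k5 := e_cg pm.pr.int (ma c) (mb a2.2) (sub_add_sub_cancel _ _ (vh h) ▸ add_mem (ea c) c2.1)
      (sub_add_sub_cancel _ _ (uh g) ▸ add_mem (eb a) a2.2)
    convert sub_mem (sub_mem (sub_mem (sub_mem (sub_mem k k1) k2) k3) k4) k5 using 1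
    simp only [fv]
    ring)
  refine can (⨅ k, W k) ((univ.biUnion fun l => d.I.image (y l)) ∪ (J.image x ∪ J.image x'))
    (fun g => ∏ ω ∈ J.powerset,
      ((if d.Ff s ι B la lb J (cor J (y 0) (ω.piecewise x' x)) (η ω 0) g then (1 : ℝ) else -1) *
      ∏ l, if d.Cc s ι A B la lb J (cor J (y l) (ω.piecewise x' x)) g then (1 : ℝ) else 0)) a r
    ⟨Subgroup.normal_iInf_normal fun k => (w2 k).nrm, ?_,
      Subgroup.finiteIndex_iInf fun k => (w2 k).fin, ?_⟩ (fun p hp => ?_) ?_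
    (fun p hp hT hU => le_iInf fun k i hi => (w1 k i).2
      ((fd k.2 k.1 (mem_powerset.1 k.1.2)).2.2.ur p hp hT (fun j hj _ => ?_) i hi))
    (fun g g' e e' => prod_congr rfl fun ω hω => ?_) (fun g => ?_) a1.1 a1.2 r1.1 r1.2 fun g => ?_
  · rw [Subgroup.coe_iInf]
    exact isOpen_iInter_of_finite fun k => (w2 k).opn
  · refine (Subgroup.index_iInf_le W).trans ((prod_le_pow_card _ _ _ fun k _ => (w2 k).le).trans ?_)
    simpa [mul_comm] using hn
  · simp only [mem_union, mem_image, mem_biUnion] at hp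
    rcases hp with ⟨l, -, i, hi, rfl⟩ | ⟨i, hi, rfl⟩ | ⟨i, hi, rfl⟩
    exacts [hZ i hi (my l i), hZ i (hJ hi) (mx i hi),
      hZ i (hJ hi) (by simpa [hi] using mz J subset_rfl i hi)]
  · have k1 := card_biUnion_le_card_mul univ (fun l => d.I.image (y l)) d.I.card
      fun _ _ => card_image_le
    have k2 := card_union_le (J.image x) (J.image x')
    have k3 := card_image_le (s := J) (f := x)
    have k4 := card_image_le (s := J) (f := x')
    have k5 := card_le_card hJ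
    rw [card_univ, Fintype.card_fin] at k1
    refine (card_union_le _ _).trans ?_
    nlinarith
  · simp only [mem_union, mem_image, mem_biUnion, not_or, not_exists, not_and] at hU
    simp only [cor_in _ _ (empty_subset J), cor_in _ _ subset_rfl, notMem_empty, if_false, piecewise]
    refine ⟨Ne.symm (hU.1 _ (mem_univ _) j hj), ?_⟩
    split_ifs with e
    exacts [Ne.symm (hU.2.2 j e), Ne.symm (hU.2.1 j e), Ne.symm (hU.1 _ (mem_univ _) j hj)]
  · have k : ∀ k {P : G → Prop}, Mon (W k) P → (P g ↔ P g') := fun k P hP => by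
      obtain ⟨a, b, c, h1, h2⟩ := e
      obtain ⟨a', b', c', h1', h2'⟩ := e'
      exact ⟨hP _ _ ⟨a', b', c', iInf_le W k h1', h2'⟩, hP _ _ ⟨a, b, c, iInf_le W k h1, h2⟩⟩
    exact congrArg₂ _ (if_congr (k (⟨ω, hω⟩, 0) (w5 _)) rfl rfl) (prod_congr rfl fun l _ => if_congr
      (and_congr (k (⟨ω, hω⟩, l) (w3 _)) (k (⟨ω, hω⟩, l) (w4 _))) rfl rfl)
  · rw [abs_prod]
    refine prod_le_one (fun _ _ => abs_nonneg _) fun ω _ => ?_
    rw [abs_mul, abs_prod]
    refine mul_le_one₀ (by split_ifs <;> simp) (prod_nonneg fun _ _ => abs_nonneg _)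
      (prod_le_one (fun _ _ => abs_nonneg _) fun l _ => by split_ifs <;> simp)
  · rw [← mul_prod_erase _ _ (empty_mem_powerset J), ← mul_prod_erase _ _ (empty_mem_powerset J),
      ← neg_mul]
    congr 1
    · simp only [piecewise_empty, t5]
      by_cases e : d.Cc s ι A B la lb J (cor J (y 0) x) g
      · rw [← neg_mul]
        refine congrArg (· * _) ((if_congr (H.flip _ _ _ _ _ _ _ _ _ g (hs 0) (t1 0).1 (t2 0).1
          (t3 0) (t4 0) t6 e.1 e.2) rfl rfl).trans ?_)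
        rw [ite_not, apply_ite Neg.neg, neg_neg]
        rfl
      · rw [prod_eq_zero (mem_univ (0 : Fin (N + 1))) (by exact if_neg e)]
        simp
    · refine prod_congr rfl fun ω hω => ?_
      obtain ⟨k1, hω⟩ := mem_erase.1 hω
      obtain ⟨i, hi⟩ := nonempty_iff_ne_empty.2 k1
      have hj := mem_powerset.1 hω hi
      have k : ∀ l, cm a r ∈ W (⟨ω, hω⟩, l) := fun l => cm_r (w2 _).nrm a (r3 i hj _ ((w1 _ _).2
        ((fd l ω (mem_powerset.1 hω)).2.2.ur _ (px i hj).1 (px i hj).2 (fun j hj' _ => by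
          have k2 := fun w hw => ((mo l).1.pt _ ((fd l ω (mem_powerset.1 hω)).2.1 w hw)).mem j
          by_cases e : j = i
          · simpa [e, cor_in, hi, hj] using And.intro ((f0 l).1 i hj) (hx i hj)
          · exact ⟨(ne i hj j hj' _ (k2 _ (empty_subset J)) e).symm,
              (ne i hj j hj' _ (k2 _ subset_rfl) e).symm⟩) _ (𝔞.τ_mem _))))
      exact congrArg₂ _ (if_congr (mon_iff (w5 _) (k 0) g) rfl rfl) (prod_congr rfl fun l _ =>
        if_congr (and_congr (mon_iff (w3 _) (k l) g) (mon_iff (w4 _) (k l) g)) rfl rfl)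

end Vale.Agent.P004S.Ga
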