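import Vale.Agent.P004S.G.St
import Vale.Agent.P004S.Cb0

/-!
# P004S, Galois half: row CUBE
-/

set_option linter.all false

noncomputable section

namespace Vale.Agent.P004S.Ga

open Finset Topology Cb

variable {V : Type} [AddCommGroup V] [Module K V] {ι : Type} [DecidableEq ι]
  {A B : AddSubgroup V} {J : Finset ι} {j k : ℕ} {x : V}

theorem p2_ne (j : ℕ) : (2 : K) ^ j ≠ 0 := pow_ne_zero j two_ne_zero

theorem sc_zero (A : AddSubgroup V) : sc A 0 = A := AddSubgroup.ext fun x => by simp [mem_sc]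

theorem sc_sc (A : AddSubgroup V) (j k : ℕ) : sc (sc A j) k = sc A (j + k) :=
  AddSubgroup.ext fun x => by rw [mem_sc, mem_sc, mem_sc, smul_smul, ← mul_inv, pow_add]

theorem sc_succ (A : AddSubgroup V) (j : ℕ) : sc A (j + 1) ≤ sc A j := fun x h => by
  have := add_mem (mem_sc.1 h) (mem_sc.1 h)
  rwa [← add_smul, show ((2 : K) ^ (j + 1))⁻¹ + (2 ^ (j + 1))⁻¹ = (2 ^ j)⁻¹ by
    rw [pow_succ]; field_simp; norm_num] at this

theorem sc_anti (A : AddSubgroup V) : Antitone (sc A) := antitone_nat_of_succ_le (sc_succ A)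

theorem sc_le (A : AddSubgroup V) (j : ℕ) : sc A j ≤ A := (sc_anti A j.zero_le).trans (sc_zero A).le

theorem sc_mono (h : A ≤ B) (j : ℕ) : sc A j ≤ sc B j := fun _ hx => h hx

theorem smul_sc (k : ℕ) : (2 : K) ^ k • x ∈ sc A (j + k) ↔ x ∈ sc A j := by
  rw [mem_sc, mem_sc, smul_smul, pow_add, mul_inv, inv_mul_cancel_right₀ (p2_ne k)]

theorem inv_sc (k : ℕ) : ((2 : K) ^ k)⁻¹ • x ∈ sc A j ↔ x ∈ sc A (j + k) := by
  rw [← sc_sc]; rfl

theorem ex_sc : x ∈ sc A j ↔ ∃ a ∈ A, x = (2 : K) ^ j • a :=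
  ⟨fun h => ⟨_, h, (smul_inv_smul₀ (p2_ne j) x).symm⟩, fun ⟨a, h, e⟩ => by
    rwa [e, mem_sc, inv_smul_smul₀ (p2_ne j)]⟩

theorem rd_eq {y : V} : rd A j x = rd A j y ↔ x - y ∈ sc A j := QuotientAddGroup.eq_iff_sub_mem

theorem map_sc {W : Type} [AddCommGroup W] [Module K W] {C : AddSubgroup W} (φ : V →ₗ[K] W)
    (h : ∀ a ∈ A, φ a ∈ C) (hx : x ∈ sc A j) : φ x ∈ sc C j := by
  rw [mem_sc, ← map_smul]; exact h _ hx

theorem Dl_eq (T : Finset ι) (f : Finset ι → V) : Dl T f = DD T f :=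
  sum_congr rfl fun w _ => by rw [← Int.cast_smul_eq_zsmul K]; simp

theorem Dl_smul (T : Finset ι) (c : K) (f : Finset ι → V) : Dl T (c • f) = c • Dl T f := by
  simp only [Dl, smul_sum, Pi.smul_apply, smul_comm c]

theorem sc_AA (J : Finset ι) (A : AddSubgroup V) (j : ℕ) : sc (AA J A) j = AF (sc A) J j :=
  AddSubgroup.ext fun f => by
    simp only [mem_sc (A := AA J A), mem_AA, Dl_smul, inv_sc]
    simp only [mem_AF, Dl_eq]

theorem AA_eq (J : Finset ι) (A : AddSubgroup V) : AA J A = AF (sc A) J 0 := by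
  rw [← sc_AA, sc_zero]

theorem AA_sc (J : Finset ι) (A : AddSubgroup V) (j : ℕ) : AA J (sc A j) = sc (AA J A) j :=
  AddSubgroup.ext fun f => by simp only [sc_AA, mem_AA, mem_AF, sc_sc, Dl_eq, add_comm j]

theorem pc_eq (J : Finset ι) (e : V →ₗ[K] V →ₗ[K] K) (f f' : Finset ι → V) :
    pc J e f f' = ((2 : K) ^ J.card)⁻¹ * DD J fun w => e (f w) (f' w) := by
  rw [pc_apply, ← Dl_eq]; rfl

/-- the additive form of a bilinear map -/
def bi {W U : Type} [AddCommGroup W] [Module K W] [AddCommGroup U] [Module K U]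
    (e : V →ₗ[K] W →ₗ[K] U) : V →+ W →+ U :=
  LinearMap.toAddMonoidHom'.comp e.toAddMonoidHom

theorem bi_sc {W U : Type} [AddCommGroup W] [Module K W] [AddCommGroup U] [Module K U]
    (e : V →ₗ[K] W →ₗ[K] U) {B : AddSubgroup W} {C : AddSubgroup U}
    (h : ∀ a ∈ A, ∀ b ∈ B, e a b ∈ C) (a b : ℕ) :
    ∀ x ∈ sc A a, ∀ y ∈ sc B b, bi e x y ∈ sc C (a + b) := fun x hx y hy => by
  have := h _ hx _ hy
  rwa [map_smul, map_smul, LinearMap.smul_apply, smul_smul, ← mul_inv, ← pow_add, add_comm] at this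

/-- **products in the cube lattices** -/
theorem AA_mul {W U : Type} [AddCommGroup W] [Module K W] [AddCommGroup U] [Module K U]
    (e : V →ₗ[K] W →ₗ[K] U) {B : AddSubgroup W} {C : AddSubgroup U}
    (h : ∀ a ∈ A, ∀ b ∈ B, e a b ∈ C) {f : Finset ι → V} {g : Finset ι → W}
    (hf : f ∈ sc (AA J A) j) (hg : g ∈ sc (AA J B) k) :
    (fun w => e (f w) (g w)) ∈ sc (AA J C) (j + k) := by
  rw [sc_AA] at *
  exact AF_mul (sc_anti A) (bi e) (bi_sc e h) J hf hg

/-- the pairing of the cube is as integral as the pairing -/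
theorem pc_mem (e : V →ₗ[K] V →ₗ[K] K) {C : AddSubgroup K} (h : ∀ a ∈ A, ∀ b ∈ B, e a b ∈ C)
    {f g : Finset ι → V} (hf : f ∈ sc (AA J A) j) (hg : g ∈ sc (AA J B) k) :
    pc J e f g ∈ sc C (j + k) := by
  have := AA_mul e h hf hg
  rw [sc_AA] at this
  rw [pc_eq, ← smul_eq_mul, inv_sc, add_comm]
  exact this J Subset.rfl

/-- the leading term of the pairing of the cube -/
theorem pc_lead (e : V →ₗ[K] V →ₗ[K] K) {C : AddSubgroup K} (h : ∀ a ∈ A, ∀ b ∈ B, e a b ∈ C)
    {f g : Finset ι → V} (hf : f ∈ sc (AA J A) j) (hg : g ∈ sc (AA J B) k) :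
    pc J e f g - ∑ S ∈ J.powerset, e (((2 : K) ^ S.card)⁻¹ • Dl S f)
      (((2 : K) ^ (J \ S).card)⁻¹ • Dl (J \ S) g) ∈ sc C (j + k + 1) := by
  rw [sc_AA] at hf hg
  have := DD_lead (bi e) (bi_sc e h) J hf hg (sc_anti A)
  rw [add_assoc, add_comm, ← inv_sc, smul_sub, smul_sum] at this
  convert this using 2
  · exact pc_eq J e f g
  · refine sum_congr rfl fun S hS => ?_
    rw [map_smul, map_smul, LinearMap.smul_apply, smul_smul, ← mul_inv, ← pow_add,
      card_sdiff_add_card_eq_card (mem_powerset.1 hS), Dl_eq, Dl_eq]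
    rfl

theorem AA_val {f : Finset ι → V} (hf : f ∈ sc (AA J A) j) {w : Finset ι} (hw : w ⊆ J) :
    f w ∈ sc A j := AF_val (sc_anti A) (sc_AA J A j ▸ hf) hw

theorem AA_of_val {f : Finset ι → V} (h : ∀ w ⊆ J, f w ∈ sc A (J.card + j)) :
    f ∈ sc (AA J A) j := (sc_AA J A j).ge (AF_of_val (sc_anti A) h)

theorem AA_const (h : x ∈ sc A j) : (fun _ => x) ∈ sc (AA J A) j := (sc_AA J A j).ge (AF_const h)

theorem AA_map {W : Type} [AddCommGroup W] [Module K W] {C : AddSubgroup W} (φ : V →ₗ[K] W)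
    (h : ∀ a ∈ A, φ a ∈ C) {f : Finset ι → V} (hf : f ∈ sc (AA J A) j) :
    (fun w => φ (f w)) ∈ sc (AA J C) j := by
  rw [sc_AA] at *
  exact AF_map φ.toAddMonoidHom (fun n x hx => map_sc φ h hx) hf

/-- signs act on the cube lattices -/
theorem AA_sgn (c : ι → K) (hc : ∀ i, c i = 1 ∨ c i = -1) {f : Finset ι → V}
    (hf : f ∈ sc (AA J A) j) : (fun w => (∏ i ∈ w, c i) • f w) ∈ sc (AA J A) j := by
  classical
  rw [sc_AA] at *
  have h1 := AF_mul FZ_anti (smulAddHom ℤ V) (F' := sc A) (F'' := sc A) (fun a b x hx y hy => by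
    obtain ⟨t, rfl⟩ := mem_FZ.1 hx
    rw [smulAddHom_apply, mul_smul, ← Int.cast_smul_eq_zsmul K, add_comm]
    push_cast
    exact (smul_sc a).2 (zsmul_mem hy t)) J
    (AF_chi (fun i => if c i = 1 then 1 else -1) J fun i _ => by split_ifs <;> decide) hf
  rw [zero_add] at h1
  convert h1 using 2 with w
  rw [smulAddHom_apply, ← Int.cast_smul_eq_zsmul K, Int.cast_prod]
  refine congrArg (· • f w) (prod_congr rfl fun i _ => ?_)
  split_ifs with h
  · simpa using h
  · simpa using (hc i).resolve_left h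

theorem two_sc {a : V} (h : a ∈ sc A j) : a + a ∈ sc A (j + 1) := by
  have := (smul_sc (A := A) (j := j) 1).2 h
  rwa [pow_one, two_smul] at this

variable (V ι) in
/-- **CUBE** -/
theorem cube : CUBE V ι where
  dins T i f h := by
    rw [Dl_eq, Dl_eq, Dl_eq, DD_insert h, ← map_sub]
    rfl
  dtop T f := (add_sum_erase _ _ (mem_powerset_self T)).symm
  ins J i A f h := by
    rw [AA_eq, AF_insert h, ← AA_eq, ← sc_AA, mem_sc, zero_add, pow_one]
    rfl
  val J A f w hf hw := by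
    refine ⟨(sc_zero A).le (AA_val ((sc_zero _).ge hf) hw), ?_⟩
    refine (show _ = f w - f ∅ from DD_DD w (f - fun _ => f ∅)) ▸ DD_mem (sc A 1) fun T hT => ?_
    rw [map_sub]
    rcases T.eq_empty_or_nonempty with rfl | h
    · rw [DD_empty, DD_empty, sub_self]
      exact zero_mem _
    · rw [DD_const h, sub_zero, ← Dl_eq]
      exact sc_anti A (card_pos.2 h) (hf T (hT.trans hw))
  cst J A f a ha h := by
    have h1 : (fun w => f w - a) ∈ sc (AA J A) 0 := AA_of_val h
    have h2 : (fun _ => a) ∈ sc (AA J A) 0 := AA_const ((sc_zero A).ge ha)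
    have := add_mem h1 h2
    rw [sc_zero] at this
    convert this using 1
    funext w
    simp
  scA J A j := (AA_sc J A j).symm
  cong J A f f' h hf := by
    rw [AA_eq] at hf ⊢
    exact AF_congr h hf
  tog T i N f hi h := by
    have := DD_insert (notMem_erase i T) f
    rw [insert_erase hi] at this
    rw [Dl_eq, this]
    exact DD_mem _ fun w hw => neg_sub (f (insert i w)) (f w) ▸ neg_mem (h w hw)
  top T A f ε h hε := by
    have k1 : cpl T f ∈ AF (sc A) T 0 := cpl_mem fun U hU => Dl_eq U f ▸ h U hU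
    have k := AA_sgn ε hε ((sc_AA T A 0).ge k1)
    rw [sc_zero] at k
    have k0 := DD_cpl_top (J := T) (f := f)
    convert k T Subset.rfl using 1
    rw [Dl_eq, Dl_eq, Dl_eq, DD_top, DD_top, DD_top T fun w => _ • cpl T f w] at *
    rw [sum_congr rfl fun w hw => by rw [cpl_ne (ne_of_mem_erase hw)]] at k0
    rw [sum_congr (f := fun w => _ • _ • cpl T f w) rfl fun w hw => by
      rw [cpl_ne (ne_of_mem_erase hw)], smul_comm _ _ (cpl T f T), eq_neg_of_add_eq_zero_left k0,
      smul_comm _ _ (f T), smul_add, smul_neg]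
    abel

variable {G : Type} [Group G] [TopologicalSpace G] {σ : Representation K G V}
  {χ : Finset ι → G →* K} {n : ℕ}

theorem cu_st (hχ : Cu J χ) (h : ∀ g, ∀ a ∈ A, σ g a ∈ A) (g : G) {f : Finset ι → V}
    (hf : f ∈ sc (AA J A) j) : cu σ χ g f ∈ sc (AA J A) j := by
  obtain ⟨h0, ε, h1, h2⟩ := hχ
  have k := AA_sgn (fun i => ε i g) (fun i => (h1 i).sq g) (AA_map (σ g) (h g) hf)
  have k1 : (fun w => χ ∅ g • (∏ i ∈ w, ε i g) • σ g (f w)) ∈ sc (AA J A) j := by
    rcases (h0 ∅).sq g with e | e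
    · simpa only [e, one_smul] using k
    · simp only [e, neg_one_smul]
      exact neg_mem k
  rw [sc_AA] at *
  refine AF_congr (fun w hw => ?_) k1
  rw [cu_apply, tw_apply, h2 w hw, MonoidHom.mul_apply, MonoidHom.finset_prod_apply, mul_smul]

variable [TopologicalSpace V] [IsTopologicalAddGroup V] [ContinuousSMul K V]

theorem opn_sc (h : IsOpen (A : Set V)) (j : ℕ) : IsOpen (sc A j : Set V) :=
  h.preimage (continuous_const_smul ((2 : K) ^ j)⁻¹)

theorem cont_Dl (T : Finset ι) : Continuous fun f : Finset ι → V => Dl T f := by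
  unfold Dl
  fun_prop

theorem lt_cu (hχ : Cu J χ) (h : Lt σ A n) : Lt (cu σ χ) (AA J A) (n ^ 2 ^ J.card) where
  st g f hf := by simpa only [sc_zero] using cu_st (j := 0) hχ h.st g (by rwa [sc_zero])
  opn := by
    have : (AA J A : Set (Finset ι → V)) =
        ⋂ T ∈ J.powerset, (fun f => Dl T f) ⁻¹' (sc A T.card : Set V) := by
      ext f
      simp [mem_AA]
    rw [this]
    exact isOpen_biInter_finset fun T _ => (opn_sc h.opn _).preimage (cont_Dl T)
  fin := by
    let S := rd A 1 '' (A : Set V)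
    have hS : S.Finite := Set.finite_of_encard_le_coe h.fin
    have : Fintype S := hS.fintype
    choose r h1 h2 using fun y : rd (AA J A) 1 '' (AA J A : Set (Finset ι → V)) => y.2
    let φ : (rd (AA J A) 1 '' (AA J A : Set (Finset ι → V))) → J.powerset → S := fun y T =>
      ⟨_, _, h1 y T (mem_powerset.1 T.2), rfl⟩
    have hφ : Function.Injective φ := fun y y' e => Subtype.ext (by
      rw [← h2, ← h2, rd_eq, sc_AA]
      intro T hT
      have := rd_eq.1 (congrArg Subtype.val (congrFun e ⟨T, mem_powerset.2 hT⟩))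
      rwa [← smul_sub, inv_sc, Dl_eq, Dl_eq, ← map_sub, add_comm] at this)
    have k : Fintype.card S ≤ n := by
      have := h.fin
      rw [Set.encard, ENat.card_eq_coe_fintype_card] at this
      exact_mod_cast this
    refine (ENat.card_le_card_of_injective hφ).trans ?_
    rw [ENat.card_eq_coe_fintype_card, Fintype.card_fun, Fintype.card_coe, card_powerset]
    exact_mod_cast Nat.pow_le_pow_left k _

theorem ct_cu (h0 : ∀ w, Qc (χ w)) (h : Ct σ) : Ct (cu σ χ) := continuous_pi fun w =>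
  ((h0 w).cont.comp continuous_fst).smul
    (h.comp (continuous_fst.prodMk ((continuous_apply w).comp continuous_snd)))

theorem pr_cu {cy : G →* K} {e : V →ₗ[K] V →ₗ[K] K} (h0 : ∀ w, Qc (χ w)) (h : Pr cy σ e A B) :
    Pr cy (cu σ χ) (pc J e) (AA J A) (AA J B) where
  eqv g x y := by
    rw [pc_apply, pc_apply, mul_left_comm, mul_sum _ _ (cy g)]
    refine congrArg _ (sum_congr rfl fun w _ => ?_)
    rw [cu_apply, cu_apply, tw_apply, tw_apply, map_smul, map_smul, LinearMap.smul_apply, h.eqv,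
      smul_smul, mul_self_eq_one_iff.2 ((h0 w).sq g), one_smul, mul_left_comm]
  int a ha b hb := by
    have := pc_mem (J := J) (j := 0) (k := 0) e (C := O.comap (AddMonoidHom.mulLeft 2)) h.int
      (by rwa [sc_zero]) (by rwa [sc_zero])
    rwa [sc_zero] at this
  cont := by
    simp only [pc_apply]
    exact continuous_const.mul (continuous_finsetSum _ fun w _ => continuous_const.mul (h.cont.comp
      (((continuous_apply w).comp continuous_fst).prodMk
        ((continuous_apply w).comp continuous_snd))))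

/-- the paired modules of the cube -/
theorem pm_cu {cy : G →* K} {e : V →ₗ[K] V →ₗ[K] K} (hχ : Cu J χ) (h : Pm cy σ e A B n) :
    Pm cy (cu σ χ) (pc J e) (AA J A) (AA J B) (n ^ 2 ^ J.card) :=
  ⟨ct_cu hχ.1 h.ct, lt_cu hχ h.la, lt_cu hχ h.lb, pr_cu hχ.1 h.pr⟩

omit [TopologicalSpace G] [TopologicalSpace V] [IsTopologicalAddGroup V] [ContinuousSMul K V] in
theorem tr_cu {g : G} (h : Tr σ A g) (h0 : χ ∅ g = 1 ∨ χ ∅ g = -1) (h1 : ∀ w ⊆ J, χ w g = χ ∅ g) :
    Tr (cu σ χ) (AA J A) g := fun f hf => by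
  have k := AA_map (C := sc A 1) (tw σ (χ ∅) g - 1) (fun a ha => by
    rw [LinearMap.sub_apply, tw_apply, Module.End.one_apply]
    rcases h0 with e | e
    · rw [e, one_smul]
      exact h a ha
    · convert sub_mem (neg_mem (h a ha)) (two_sc ((sc_zero A).ge ha)) using 1
      rw [e, neg_one_smul, d0]
      abel) ((sc_zero _).ge hf)
  rw [sc_zero, AA_sc, sc_AA] at k
  rw [sc_AA]
  refine AF_congr (fun w hw => ?_) k
  rw [d0, Pi.sub_apply, cu_apply, tw_apply, h1 w hw]
  rfl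

variable (V ι) in
/-- **CUM** -/
theorem cum (𝔞 : Ar G) : CUM 𝔞 V ι where
  lt _ _ _ _ _ h1 h2 h3 := ⟨ct_cu h3.1 h1, lt_cu h3 h2⟩
  pm _ _ _ _ _ _ _ h1 h2 := pm_cu h2 h1
  tr _ _ _ _ _ := tr_cu

end Vale.Agent.P004S.Ga
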