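import Mathlib

/-!
# P004S, Galois half: the words (helper61, note 288)

`G` is a topological group with places (`Ar`), cochains are continuous functions with values in a
vector space over `ℚ_[2]`, congruences are modulo `sc A j = 2 ^ j A`.
-/

set_option linter.all false

noncomputable section

namespace Vale.Agent.P004S.Ga

open Finset Topology

/-- the field -/
abbrev K : Type := ℚ_[2]

/-- the integers -/
def O : AddSubgroup K := (PadicInt.subring 2).toAddSubgroup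

theorem mem_O {x : K} : x ∈ O ↔ ‖x‖ ≤ 1 := Iff.rfl

/-- places: `0` is the real place -/
def Pl (v : ℕ) : Prop := v = 0 ∨ v.Prime

section grp

variable {G : Type} [Group G]

/-- the differential of a function with values in `K (cy)` -/
def d2 (cy : G →* K) (θ : G → K) (g h : G) : K := cy g * θ h - θ (g * h) + θ g

/-- the differential of a function of two variables with values in `K (cy)` -/
def d3 (cy : G →* K) (z : G → G → K) (g h k : G) : K :=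
  cy g * z h k - z (g * h) k + z g (h * k) - z g h

/-- the commutator -/
def cm (a b : G) : G := a * b * a⁻¹ * b⁻¹

/-- `g` is conjugate to a power of `g'` modulo `W` -/
def Le (W : Subgroup G) (g g' : G) : Prop :=
  ∃ (h : G) (n : ℕ), ∃ w ∈ W, g = h * g' ^ n * h⁻¹ * w

/-- rational class functions modulo `W` -/
def Rat (W : Subgroup G) (Φ : G → ℝ) : Prop := ∀ g g', Le W g g' → Le W g' g → Φ g = Φ g'

/-- properties like having a fixed point -/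
def Mon (W : Subgroup G) (P : G → Prop) : Prop := ∀ g g', Le W g g' → P g' → P g

variable [TopologicalSpace G]

/-- quadratic characters -/
structure Qc (χ : G →* K) : Prop where
  sq : ∀ g, χ g = 1 ∨ χ g = -1
  cont : Continuous χ

/-- two cocycles modulo `O` -/
structure Z2 (cy : G →* K) (D : Subgroup G) (z : G → G → K) : Prop where
  cont : ContinuousOn (fun p : G × G => z p.1 p.2) ((D : Set G) ×ˢ (D : Set G))
  coc : ∀ g ∈ D, ∀ h ∈ D, ∀ k ∈ D, d3 cy z g h k ∈ O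

/-- two coboundaries modulo `O` -/
def B2 (cy : G →* K) (D : Subgroup G) (z : G → G → K) : Prop :=
  ∃ θ : G → K, ContinuousOn θ D ∧ ∀ g ∈ D, ∀ h ∈ D, z g h - d2 cy θ g h ∈ O

/-- unramified characters with values in `O / 2` modulo `O` -/
structure Uc (D I : Subgroup G) (θ : G → K) : Prop where
  cont : ContinuousOn θ D
  half : ∀ g ∈ D, 2 * θ g ∈ O
  add : ∀ g ∈ D, ∀ h ∈ D, θ (g * h) - θ g - θ h ∈ O
  ur : ∀ i ∈ I, θ i ∈ O

/-- open normal subgroups of index at most `n` -/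
structure Lv (W : Subgroup G) (n : ℕ) : Prop where
  nrm : W.Normal
  opn : IsOpen (W : Set G)
  fin : W.FiniteIndex
  le : W.index ≤ n

end grp

/-- the arithmetic of the rational field -/
structure Ar (G : Type) [Group G] [TopologicalSpace G] where
  D : ℕ → Subgroup G
  I : ℕ → Subgroup G
  τ : ℕ → G
  F : ℕ → G
  cy : G →* K
  κ : ℕ → G →* K
  le : ∀ p, I p ≤ D p
  nrm : ∀ p, ∀ g ∈ D p, ∀ i ∈ I p, g * i * g⁻¹ ∈ I p
  τ_mem : ∀ p, τ p ∈ I p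
  F_mem : ∀ p, F p ∈ D p
  tam : ∀ p, p.Prime → p ≠ 2 → ∀ H : Subgroup G, (H : Set G) ∈ 𝓝[I p] (1 : G) → τ p ∈ H →
    (∀ i ∈ I p, i * i ∈ H) → I p ≤ H
  frob : ∀ p, p.Prime → ∀ H : Subgroup G, (H : Set G) ∈ 𝓝[D p] (1 : G) → I p ≤ H → F p ∈ H →
    D p ≤ H
  fin : ∀ W ∈ 𝓝 (1 : G), {p : ℕ | p.Prime ∧ ¬ (I p : Set G) ⊆ W}.Finite
  cy_cont : Continuous cy
  cy_one : ∀ g, 2⁻¹ * (cy g - 1) ∈ O
  κ_qc : ∀ v, Qc (κ v)
  κ_ur : ∀ v p, p.Prime → p ≠ 2 → p ≠ v → ∀ i ∈ I p, κ v i = 1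
  κ_τ : ∀ p, p.Prime → p ≠ 2 → κ p (τ p) = -1
  qr : ∀ p q v, p.Prime → q.Prime → p ≠ 2 → q ≠ 2 → Pl v → p ≠ v → q ≠ v →
    κ 0 (F p) = κ 0 (F q) → κ 2 (F p) = κ 2 (F q) → κ v (F p) = κ v (F q) →
    ∀ g ∈ D v, κ p g = κ q g
  gen : ∀ T : Finset ℕ, 0 ∈ T → 2 ∈ T → ∀ f : G →* K, Qc f →
    (∀ p, p.Prime → p ∉ T → ∀ i ∈ I p, f i = 1) → ∃ U ⊆ T, f = ∏ v ∈ U, κ v
  has : ∀ z, Z2 cy ⊤ z → (∀ g h, 2 * z g h ∈ O) → (∀ v, Pl v → B2 cy (D v) z) →
    ∃ η : G → K, Continuous η ∧ (∀ g, 2 * η g ∈ O) ∧ ∀ g h, z g h - d2 cy η g h ∈ O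
  unr : ∀ p, p.Prime → p ≠ 2 → ∀ z, Z2 cy (D p) z →
    (∀ g ∈ D p, ∀ h ∈ D p, ∀ i ∈ I p, z (g * i) h - z g h ∈ O ∧ z g (h * i) - z g h ∈ O) →
    B2 cy (D p) z
  rcp : ∀ (P : Finset ℕ) (z : G → G → K) (c : ℕ → G →* K) (θ : ℕ → G → K), Z2 cy ⊤ z →
    (∀ v, Pl v → v ∉ P → B2 cy (D v) z) →
    (∀ p ∈ P, p.Prime ∧ p ≠ 2 ∧ Qc (c p) ∧ c p (τ p) = -1 ∧ Uc (D p) (I p) (θ p) ∧
      B2 cy (D p) fun g h => z g h - 2⁻¹ * (1 - c p g) * θ p h) → ∑ p ∈ P, θ p (F p) ∈ O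

section mod

variable {V : Type} [AddCommGroup V] [Module K V]

/-- `2 ^ j A` -/
def sc (A : AddSubgroup V) (j : ℕ) : AddSubgroup V where
  carrier := {x | ((2 : K) ^ j)⁻¹ • x ∈ A}
  add_mem' {a b} ha hb := by
    show _ • (a + b) ∈ A
    rw [smul_add]; exact A.add_mem ha hb
  zero_mem' := by
    show _ • (0 : V) ∈ A
    rw [smul_zero]; exact A.zero_mem
  neg_mem' {a} ha := by
    show _ • (-a) ∈ A
    rw [smul_neg]; exact A.neg_mem ha

theorem mem_sc {A : AddSubgroup V} {j : ℕ} {x : V} : x ∈ sc A j ↔ ((2 : K) ^ j)⁻¹ • x ∈ A := Iff.rfl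

/-- reduction modulo `2 ^ j A` -/
def rd (A : AddSubgroup V) (j : ℕ) (x : V) : V ⧸ sc A j := QuotientAddGroup.mk x

/-- alternating sums over a face -/
def Dl {ι : Type} (T : Finset ι) (f : Finset ι → V) : V :=
  ∑ w ∈ T.powerset, (-1 : K) ^ w.card • f w

/-- the lattice of the cube -/
def AA {ι : Type} (J : Finset ι) (A : AddSubgroup V) : AddSubgroup (Finset ι → V) where
  carrier := {f | ∀ T ⊆ J, Dl T f ∈ sc A T.card}
  add_mem' {a b} ha hb T hT := by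
    have : Dl T (a + b) = Dl T a + Dl T b := by simp [Dl, sum_add_distrib]
    rw [this]; exact add_mem (ha T hT) (hb T hT)
  zero_mem' T _ := by
    have : Dl T (0 : Finset ι → V) = 0 := by simp [Dl]
    rw [this]; exact zero_mem _
  neg_mem' {a} ha T hT := by
    have : Dl T (-a) = -Dl T a := by simp [Dl]
    rw [this]; exact neg_mem (ha T hT)

theorem mem_AA {ι : Type} {J : Finset ι} {A : AddSubgroup V} {f : Finset ι → V} :
    f ∈ AA J A ↔ ∀ T ⊆ J, Dl T f ∈ sc A T.card := Iff.rfl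

/-- the pairing of the cube -/
def pc {ι : Type} (J : Finset ι) (e : V →ₗ[K] V →ₗ[K] K) :
    (Finset ι → V) →ₗ[K] (Finset ι → V) →ₗ[K] K :=
  ((2 : K) ^ J.card)⁻¹ • ∑ w ∈ J.powerset,
    (-1 : K) ^ w.card • e.compl₁₂ (LinearMap.proj w) (LinearMap.proj w)

theorem pc_apply {ι : Type} (J : Finset ι) (e : V →ₗ[K] V →ₗ[K] K) (f f' : Finset ι → V) :
    pc J e f f' = ((2 : K) ^ J.card)⁻¹ * ∑ w ∈ J.powerset, (-1 : K) ^ w.card * e (f w) (f' w) := by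
  simp [pc, LinearMap.sum_apply]

variable {G : Type} [Group G]

/-- the twist -/
def tw (σ : Representation K G V) (χ : G →* K) : Representation K G V where
  toFun g := χ g • σ g
  map_one' := by simp
  map_mul' g h := by simp [smul_smul, mul_comm]

theorem tw_apply (σ : Representation K G V) (χ : G →* K) (g : G) (x : V) :
    tw σ χ g x = χ g • σ g x := rfl

/-- the representation on the functions on the cube -/
def cu {ι : Type} (σ : Representation K G V) (χ : Finset ι → G →* K) :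
    Representation K G (Finset ι → V) where
  toFun g := LinearMap.pi fun w => (tw σ (χ w) g).comp (LinearMap.proj w)
  map_one' := by ext f w; simp
  map_mul' g h := by ext f w; simp

theorem cu_apply {ι : Type} (σ : Representation K G V) (χ : Finset ι → G →* K) (g : G)
    (f : Finset ι → V) (w : Finset ι) : cu σ χ g f w = tw σ (χ w) g (f w) := rfl

/-- the differential in degree zero -/
def d0 (σ : Representation K G V) (a : V) (g : G) : V := σ g a - a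

/-- the differential in degree one -/
def d1 (σ : Representation K G V) (ψ : G → V) (g h : G) : V := σ g (ψ h) - ψ (g * h) + ψ g

/-- the cup product -/
def cup (e : V →ₗ[K] V →ₗ[K] K) (σ : Representation K G V) (ψ υ : G → V) (g h : G) : K :=
  e (ψ g) (σ g (υ h))

/-- the cup product of two cocycles of level `j` -/
def lv (e : V →ₗ[K] V →ₗ[K] K) (σ : Representation K G V) (j : ℕ) (ψ υ : G → V) (g h : G) : K :=
  ((2 : K) ^ j)⁻¹ * 2 * cup e σ ψ υ g h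

/-- `g` acts trivially on `A / 2 A` -/
def Tr (σ : Representation K G V) (A : AddSubgroup V) (g : G) : Prop :=
  ∀ a ∈ A, d0 σ a g ∈ sc A 1

/-- eligible elements: the same invariants and coinvariants on `A / 2 A` as the group -/
structure El (σ : Representation K G V) (A : AddSubgroup V) (F : G) : Prop where
  inv : ∀ a ∈ A, d0 σ a F ∈ sc A 1 → ∀ g, d0 σ a g ∈ sc A 1
  co : ∀ g, ∀ a ∈ A, ∃ a' ∈ A, d0 σ a g - d0 σ a' F ∈ sc A 1

/-- non degenerate pairs -/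
def ND (e : V →ₗ[K] V →ₗ[K] K) (σ : Representation K G V) (A B : AddSubgroup V) (v u : G → V) :
    Prop :=
  ∃ g h, Tr σ A g ∧ Tr σ B g ∧ Tr σ A h ∧ Tr σ B h ∧ e (v g) (u h) + e (v h) (u g) ∉ O

/-- the class of `v` dies on the cyclic group of `g` -/
def Cv (σ : Representation K G V) (A : AddSubgroup V) (v : G → V) (g : G) : Prop :=
  ∃ a ∈ A, v g - d0 σ a g ∈ sc A 1

/-- `g` has a fixed point on the Heisenberg set -/
def Fx (e : V →ₗ[K] V →ₗ[K] K) (σ : Representation K G V) (B : AddSubgroup V) (v u : G → V)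
    (η : G → K) (g : G) : Prop :=
  ∃ μ ∈ B, u g - d0 σ μ g ∈ sc B 1 ∧ η g + e (v g) (σ g μ) ∈ O

/-- `g` acts trivially on all the data -/
structure Kn (σ : Representation K G V) (A B : AddSubgroup V) (v u : G → V) (η : G → K) (g : G) :
    Prop where
  ta : Tr σ A g
  tb : Tr σ B g
  va : v g ∈ sc A 1
  ub : u g ∈ sc B 1
  et : η g ∈ O

/-- the characters of the corners of a cube -/
def Cu [TopologicalSpace G] {ι : Type} (J : Finset ι) (χ : Finset ι → G →* K) : Prop :=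
  (∀ w, Qc (χ w)) ∧ ∃ ε : ι → G →* K, (∀ i, Qc (ε i)) ∧ ∀ w ⊆ J, χ w = χ ∅ * ∏ i ∈ w, ε i

variable [TopologicalSpace V]

/-- stable lattices with `|A / 2 A| ≤ n` -/
structure Lt (σ : Representation K G V) (A : AddSubgroup V) (n : ℕ) : Prop where
  st : ∀ g, ∀ a ∈ A, σ g a ∈ A
  opn : IsOpen (A : Set V)
  fin : (rd A 1 '' (A : Set V)).encard ≤ n

/-- pairings -/
structure Pr (cy : G →* K) (σ : Representation K G V) (e : V →ₗ[K] V →ₗ[K] K)
    (A B : AddSubgroup V) : Prop where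
  eqv : ∀ g x y, e (σ g x) (σ g y) = cy g * e x y
  int : ∀ a ∈ A, ∀ b ∈ B, 2 * e a b ∈ O
  cont : Continuous fun p : V × V => e p.1 p.2

variable [TopologicalSpace G]

/-- continuous actions -/
def Ct (σ : Representation K G V) : Prop := Continuous fun p : G × V => σ p.1 p.2

/-- cocycles of level `j` -/
structure Cj (D : Subgroup G) (σ : Representation K G V) (A : AddSubgroup V) (j : ℕ) (ψ : G → V) :
    Prop where
  cont : ContinuousOn ψ D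
  mem : ∀ g ∈ D, ψ g ∈ A
  coc : ∀ g ∈ D, ∀ h ∈ D, d1 σ ψ g h ∈ sc A j

/-- paired modules -/
structure Pm (cy : G →* K) (σ : Representation K G V) (e : V →ₗ[K] V →ₗ[K] K)
    (A B : AddSubgroup V) (n : ℕ) : Prop where
  ct : Ct σ
  la : Lt σ A n
  lb : Lt σ B n
  pr : Pr cy σ e A B

/-- Heisenberg data -/
structure Hs (cy : G →* K) (σ : Representation K G V) (e : V →ₗ[K] V →ₗ[K] K)
    (A B : AddSubgroup V) (n : ℕ) (v u : G → V) (η : G → K) : Prop where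
  pm : Pm cy σ e A B n
  cv : Cj ⊤ σ A 1 v
  cu : Cj ⊤ σ B 1 u
  cont : Continuous η
  half : ∀ g, 2 * η g ∈ O
  co : ∀ g h, cup e σ v u g h - d2 cy η g h ∈ O

/-- cancellation over the primes of `X` -/
def Can (𝔞 : Ar G) (σ : Representation K G V) (A B : AddSubgroup V) (T Z X : Finset ℕ) (n c : ℕ)
    (δ : ℝ) : Prop :=
  ∀ (W : Subgroup G) (U : Finset ℕ) (Φ : G → ℝ) (a b : G), Lv W n → U ⊆ Z → U.card ≤ c →
    (∀ p, p.Prime → p ∉ T → p ∉ U → 𝔞.I p ≤ W) → Rat W Φ → (∀ g, |Φ g| ≤ 1) →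
    Tr σ A a → Tr σ B a → Tr σ A b → Tr σ B b → (∀ g, Φ (g * cm a b) = -Φ g) →
    |∑ p ∈ X, Φ (𝔞.F p)| ≤ δ * X.card

end mod

/-- the representation with its local conditions -/
structure Sy {G : Type} [Group G] [TopologicalSpace G] (𝔞 : Ar G) (V : Type) [AddCommGroup V]
    [Module K V] [TopologicalSpace V] where
  ρ : Representation K G V
  e : V →ₗ[K] V →ₗ[K] K
  S : Finset ℕ
  L : ℕ → (G →* K) → Submodule K (G → V)
  zero : 0 ∈ S
  two : 2 ∈ S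
  ur : ∀ p, p.Prime → p ∉ S → ∀ i ∈ 𝔞.I p, ρ i = 1
  wt : ∀ p, p.Prime → p ∉ S → ∀ ε : K, ε = 1 ∨ ε = -1 → ∀ x, ∃ a, x = ε • ρ (𝔞.F p) a - a
  cob : ∀ v χ, Pl v → Qc χ → ∀ a, d0 (tw ρ χ) a ∈ L v χ
  iso : ∀ v χ, Pl v → Qc χ → ∀ l ∈ L v χ, ∀ l' ∈ L v χ, ∃ θ : G → K, ContinuousOn θ (𝔞.D v) ∧
    ∀ g ∈ 𝔞.D v, ∀ h ∈ 𝔞.D v, cup e (tw ρ χ) l l' g h = d2 𝔞.cy θ g h
  loc : ∀ v χ χ', Pl v → Qc χ → Qc χ' → (∀ g ∈ 𝔞.D v, χ g = χ' g) →
    ∀ l ∈ L v χ, ∃ l' ∈ L v χ', ∀ g ∈ 𝔞.D v, l g = l' g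
  out : ∀ v χ, v.Prime → v ∉ S → Qc χ → ∀ l ∈ L v χ, ∃ a, ∀ g ∈ 𝔞.D v, l g = d0 (tw ρ χ) a g

section sel

variable {G : Type} [Group G] [TopologicalSpace G] {𝔞 : Ar G} {V : Type} [AddCommGroup V]
  [Module K V] [TopologicalSpace V]

/-- the local condition at level `j` -/
def Lc (s : Sy 𝔞 V) (v : ℕ) (χ : G →* K) (A : AddSubgroup V) (j : ℕ) (ψ : G → V) : Prop :=
  ∃ l ∈ s.L v χ, ∀ g ∈ 𝔞.D v, ψ g - l g ∈ sc A j

/-- cocycles of level `j`, unramified outside `U`, with the local condition at `T` -/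
structure Sel (s : Sy 𝔞 V) (χ : G →* K) (A : AddSubgroup V) (j : ℕ) (T U : Finset ℕ) (ψ : G → V) :
    Prop where
  cj : Cj ⊤ (tw s.ρ χ) A j ψ
  ur : ∀ p, p.Prime → p ∉ U → ∀ i ∈ 𝔞.I p, ψ i ∈ sc A j
  lc : ∀ v ∈ T, Pl v → Lc s v χ A j ψ

/-- Selmer cocycles of level one, modulo two -/
def Z1 (s : Sy 𝔞 V) (χ : G →* K) (A : AddSubgroup V) (U : Finset ℕ) : Set (G → V ⧸ sc A 1) :=
  (fun (ψ : G → V) g => rd A 1 (ψ g)) '' {ψ | Sel s χ A 1 U U ψ}

/-- the twists which have to be rare -/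
def Bad (s : Sy 𝔞 V) (A B : AddSubgroup V) (n : ℕ) (χ : G →* K) (U : Finset ℕ) : Prop :=
  (Z1 s χ A U).encard ≤ n ∧ (Z1 s χ B U).encard ≤ n ∧ ∃ v u : G → V,
    (∀ j, Sel s χ A j U U v) ∧ (∀ j, Sel s χ B j U U u) ∧ ∀ a β : V,
      (∀ g, d0 (tw s.ρ χ) a g ∈ A) → (∀ g, d0 (tw s.ρ χ) β g ∈ B) →
      ND s.e s.ρ A B (v - d0 (tw s.ρ χ) a) (u - d0 (tw s.ρ χ) β)

end sel

/-- boxes -/
structure Dat (G : Type) [Group G] (ι : Type) where
  T : Finset ℕ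
  χ : G →* K
  I : Finset ι
  X : ι → Finset ℕ
  sy : ι → ι → K

section box

variable {G : Type} [Group G] [TopologicalSpace G] {V : Type} [AddCommGroup V]
  [Module K V] [TopologicalSpace V] {ι : Type} [DecidableEq ι]

/-- the corners of a cube with base `y` and top `z` -/
def cor (J : Finset ι) (y z : ι → ℕ) (w : Finset ι) : ι → ℕ := (w ∩ J).piecewise z y

/-- the character of a point -/
def Dat.ch (d : Dat G ι) (𝔞 : Ar G) (x : ι → ℕ) : G →* K := d.χ * ∏ i ∈ d.I, 𝔞.κ (x i)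

/-- the support of a point -/
def Dat.sp (d : Dat G ι) (x : ι → ℕ) : Finset ℕ := d.T ∪ d.I.image x

/-- points of the box with the given symbols -/
structure Dat.Pt (d : Dat G ι) (𝔞 : Ar G) (x : ι → ℕ) : Prop where
  mem : ∀ i, x i ∈ d.X i
  sym : ∀ i ∈ d.I, ∀ j ∈ d.I, i ≠ j → 𝔞.κ (x i) (𝔞.F (x j)) = d.sy i j

variable {𝔞 : Ar G}

/-- good boxes -/
structure Dat.Ok (d : Dat G ι) (s : Sy 𝔞 V) : Prop where
  sub : s.S ⊆ d.T
  qc : Qc d.χ
  ur : ∀ p, p.Prime → p ∉ d.T → ∀ i ∈ 𝔞.I p, d.χ i = 1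
  pr : ∀ i ∈ d.I, ∀ p ∈ d.X i, p.Prime ∧ p ∉ d.T
  dj : ∀ i ∈ d.I, ∀ j ∈ d.I, i ≠ j → Disjoint (d.X i) (d.X j)
  same : ∀ i ∈ d.I, ∀ p ∈ d.X i, ∀ q ∈ d.X i, ∀ v ∈ d.T, 𝔞.κ v (𝔞.F p) = 𝔞.κ v (𝔞.F q)

/-- `ψ` is a lift of `vh` of level `j` at the point `x`, relaxed at the primes of `x` -/
structure Dat.Lf (d : Dat G ι) (s : Sy 𝔞 V) (A : AddSubgroup V) (j : ℕ) (vh : G → V) (x : ι → ℕ)
    (ψ : G → V) : Prop where
  sel : Sel s (d.ch 𝔞 x) A j d.T (d.sp x) ψ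
  eq : ∀ g, ψ g - vh g ∈ sc A 1

/-- the elements `gs` separate the cocycles of level one which are unramified outside `T` -/
def Dat.Sp (d : Dat G ι) (s : Sy 𝔞 V) (A : AddSubgroup V) (gs : Finset G) : Prop :=
  ∀ x : ι → ℕ, (∀ i, x i ∈ d.X i) → ∀ φ, Sel s (d.ch 𝔞 x) A 1 d.T d.T φ →
    (∀ g ∈ gs, φ g ∈ sc A 1) → ∀ g, φ g ∈ sc A 1

/-- the ramification of the Selmer cocycles of level one is the same at `x i` and `x j` -/
def Dat.Rl (d : Dat G ι) (s : Sy 𝔞 V) (A : AddSubgroup V) (x : ι → ℕ) (i j : ι) : Prop :=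
  ∀ φ, Sel s (d.ch 𝔞 x) A 1 (d.sp x) (d.sp x) φ → φ (𝔞.τ (x i)) - φ (𝔞.τ (x j)) ∈ sc A 1

/-- a set of points with lifts of level `m + 1` and one colour -/
structure Dat.Mo (d : Dat G ι) (s : Sy 𝔞 V) (A : AddSubgroup V) (m : ℕ) (vh : G → V)
    (lf : (ι → ℕ) → G → V) (Y : Set (ι → ℕ)) : Prop where
  ur : ∀ p, p.Prime → p ∉ d.T → vh (𝔞.τ p) ∈ sc A 1
  pt : ∀ x ∈ Y, d.Pt 𝔞 x
  lft : ∀ x ∈ Y, d.Lf s A (m + 1) vh x (lf x)
  gs : ∃ gs : Finset G, d.Sp s A gs ∧ ∀ x ∈ Y, ∀ x' ∈ Y, ∀ g ∈ gs, lf x g - lf x' g ∈ sc A m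
  ta : ∀ x ∈ Y, ∀ x' ∈ Y, ∀ i ∈ d.I, lf x (𝔞.τ (x i)) - lf x' (𝔞.τ (x' i)) ∈ sc A m

/-- the representation of a family of corners -/
def Dat.fσ (d : Dat G ι) (s : Sy 𝔞 V) (c : Finset ι → ι → ℕ) :
    Representation K G (Finset ι → V) := cu s.ρ fun w => d.ch 𝔞 (c w)

/-- the cochain of a family of corners -/
def fv (lf : (ι → ℕ) → G → V) (c : Finset ι → ι → ℕ) (g : G) : Finset ι → V :=
  fun w => lf (c w) g

/-- the completion at the top corner -/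
def tp (lf : (ι → ℕ) → G → V) (J : Finset ι) (y z : ι → ℕ) (g : G) : V :=
  -((-1 : K) ^ J.card • ∑ w ∈ J.ssubsets, (-1 : K) ^ w.card • lf (cor J y z w) g)

/-- the completed family -/
def fc (lf : (ι → ℕ) → G → V) (J : Finset ι) (y z : ι → ℕ) (g : G) : Finset ι → V :=
  fun w => if J ⊆ w then tp lf J y z g else lf (cor J y z w) g

/-- Heisenberg data of a face with directions `J`, unramified at the primes of the direction `b` -/
structure Dat.Fd (d : Dat G ι) (s : Sy 𝔞 V) (A B : AddSubgroup V) (n : ℕ)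
    (la lb : (ι → ℕ) → G → V) (J : Finset ι) (b : ι) (c : Finset ι → ι → ℕ) (η : G → K) : Prop where
  hs : Hs 𝔞.cy (d.fσ s c) (pc J s.e) (AA J A) (AA J B) (n ^ 2 ^ J.card) (fv la c) (fv lb c) η
  ur : ∀ p, p.Prime → p ∉ d.T → (∀ i ∈ d.I, i ≠ b → p ≠ c ∅ i ∧ p ≠ c J i) → ∀ i ∈ 𝔞.I p,
    Kn (d.fσ s c) (AA J A) (AA J B) (fv la c) (fv lb c) η i

/-- the sets `Y j` -/
structure Dat.Yj (d : Dat G ι) (s : Sy 𝔞 V) (A B : AddSubgroup V) (P : (ι → ℕ) → Prop)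
    (vh uh : G → V) (j : ℕ) (x : ι → ℕ) : Prop where
  pt : d.Pt 𝔞 x
  pp : P x
  la : ∃ ψ, d.Lf s A j vh x ψ
  lb : ∃ υ, d.Lf s B j uh x υ

end box

end Vale.Agent.P004S.Ga
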