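import Vale.Agent.P004S.G.Defs

/-!
# P004S, Galois half: the Heisenberg set
-/

set_option linter.all false

noncomputable section

namespace Vale.Agent.P004S.Ga.He

open Topology

theorem o_two {x : K} (h : x ∈ O) : 2 * x ∈ O := by rw [two_mul]; exact add_mem h h

theorem o_mul {x y : K} (h : x ∈ O) (h' : y ∈ O) : x * y ∈ O := (PadicInt.subring 2).mul_mem h h'

theorem o_one : (1 : K) ∈ O := (PadicInt.subring 2).one_mem

theorem o_open : IsOpen (O : Set K) := by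
  have : (O : Set K) = Metric.closedBall 0 1 := Set.ext fun x => by simp [mem_O]
  rw [this]
  exact IsUltrametricDist.isOpen_closedBall _ one_ne_zero

theorem o_dich {x y : K} (hx : 2 * x ∈ O) (hy : 2 * y ∈ O) (h : x ∉ O) (h' : y ∉ O) : x + y ∈ O := by
  have key : ∀ z : K, 2 * z ∈ O → z ∉ O → z - 2⁻¹ ∈ O := fun z a b => by
    obtain ⟨c, hc, h1⟩ := PadicInt.exists_mem_range (p := 2) ⟨2 * z, a⟩
    rw [PadicInt.maximalIdeal_eq_span_p, Ideal.mem_span_singleton] at h1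
    obtain ⟨t, ht⟩ := h1
    have h2 : 2 * z - c = 2 * (t : K) := by exact_mod_cast congrArg (fun x : ℤ_[2] => (x : K)) ht
    interval_cases c
    · exact (b (by rw [show z = t by linear_combination 2⁻¹ * h2]; exact t.2)).elim
    · rw [show z - 2⁻¹ = t by linear_combination 2⁻¹ * h2]
      exact t.2
  have := add_mem (add_mem (key x hx h) (key y hy h')) o_one
  convert this using 1
  ring

theorem half_not : (2⁻¹ : K) ∉ O := by
  rw [mem_O, norm_inv, not_le, one_lt_inv_iff₀]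
  exact ⟨norm_pos_iff.2 two_ne_zero, by exact_mod_cast Padic.norm_p_lt_one (p := 2)⟩

variable {G : Type} [Group G] {V : Type} [AddCommGroup V] [Module K V]
  {cy : G →* K} {σ : Representation K G V} {e : V →ₗ[K] V →ₗ[K] K} {A B : AddSubgroup V}
  {v u : G → V} {η : G → K}

theorem sc1 {x : V} : x ∈ sc A 1 ↔ (2 : K)⁻¹ • x ∈ A := by rw [mem_sc, pow_one]

theorem sc1_le {x : V} (h : x ∈ sc A 1) : x ∈ A := by
  have := add_mem (sc1.1 h) (sc1.1 h)
  rwa [← add_smul, show (2 : K)⁻¹ + 2⁻¹ = 1 by norm_num, one_smul] at this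

theorem sc1_two {x : V} (h : x ∈ A) : x + x ∈ sc A 1 := by
  rwa [sc1, ← two_smul K, smul_smul, inv_mul_cancel₀ two_ne_zero, one_smul]

/-- the algebraic part of the Heisenberg data -/
structure Hz (cy : G →* K) (σ : Representation K G V) (e : V →ₗ[K] V →ₗ[K] K)
    (A B : AddSubgroup V) (v u : G → V) (η : G → K) : Prop where
  cy1 : ∀ g, 2⁻¹ * (cy g - 1) ∈ O
  sa : ∀ g, ∀ a ∈ A, σ g a ∈ A
  sb : ∀ g, ∀ a ∈ B, σ g a ∈ B
  eqv : ∀ g x y, e (σ g x) (σ g y) = cy g * e x y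
  int : ∀ a ∈ A, ∀ b ∈ B, 2 * e a b ∈ O
  va : ∀ g, v g ∈ A
  ub : ∀ g, u g ∈ B
  cv : ∀ g h, d1 σ v g h ∈ sc A 1
  cu : ∀ g h, d1 σ u g h ∈ sc B 1
  half : ∀ g, 2 * η g ∈ O
  co : ∀ g h, cup e σ v u g h - d2 cy η g h ∈ O

theorem st1 (h : ∀ g, ∀ a ∈ A, σ g a ∈ A) (g : G) {x : V} (hx : x ∈ sc A 1) : σ g x ∈ sc A 1 := by
  rw [sc1, ← map_smul]
  exact h g _ (sc1.1 hx)

theorem e_l (h : ∀ a ∈ A, ∀ b ∈ B, 2 * e a b ∈ O) {a b : V} (ha : a ∈ sc A 1) (hb : b ∈ B) :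
    e a b ∈ O := by simpa using h _ (sc1.1 ha) b hb

theorem e_r (h : ∀ a ∈ A, ∀ b ∈ B, 2 * e a b ∈ O) {a b : V} (ha : a ∈ A) (hb : b ∈ sc B 1) :
    e a b ∈ O := by simpa using h a ha _ (sc1.1 hb)

theorem cy_mul (h : ∀ g, 2⁻¹ * (cy g - 1) ∈ O) (g : G) {x : K} (hx : 2 * x ∈ O) :
    cy g * x - x ∈ O := by
  convert o_mul (h g) hx using 1
  ring

theorem coc_one (h : ∀ g h, d1 σ v g h ∈ sc A 1) : v 1 ∈ sc A 1 := by simpa [d1] using h 1 1

/-- points of the Heisenberg set -/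
def St (B : AddSubgroup V) : Setoid {p : V × K // p.1 ∈ B ∧ 2 * p.2 ∈ O} where
  r p q := p.1.1 - q.1.1 ∈ sc B 1 ∧ p.1.2 - q.1.2 ∈ O
  iseqv := ⟨fun _ => by simp, fun h => ⟨by simpa using neg_mem h.1, by simpa using neg_mem h.2⟩,
    fun h h' => ⟨by simpa using add_mem h.1 h'.1, by simpa using add_mem h.2 h'.2⟩⟩

namespace Hz

variable (h : Hz cy σ e A B v u η)
include h

theorem eta_one : η 1 ∈ O := by
  have := sub_mem (e_l h.int (coc_one h.cv) (h.sb 1 _ (h.ub 1))) (h.co 1 1)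
  simpa [cup, d2] using this

/-- the Heisenberg set -/
def Om (_ : Hz cy σ e A B v u η) : Type := Quotient (St B)

/-- its points -/
def pt {μ : V} {t : K} (hμ : μ ∈ B) (ht : 2 * t ∈ O) : h.Om := Quotient.mk _ ⟨(μ, t), hμ, ht⟩

theorem pt_eq {μ μ' : V} {t t' : K} {hμ : μ ∈ B} {ht : 2 * t ∈ O} {hμ' : μ' ∈ B}
    {ht' : 2 * t' ∈ O} : h.pt hμ ht = h.pt hμ' ht' ↔ μ - μ' ∈ sc B 1 ∧ t - t' ∈ O := Quotient.eq

theorem ex_pt (x : h.Om) : ∃ μ t hμ ht, x = h.pt (μ := μ) (t := t) hμ ht :=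
  Quotient.inductionOn x fun p => ⟨_, _, p.2.1, p.2.2, rfl⟩

theorem m1 (g : G) {μ : V} (hμ : μ ∈ B) : σ g μ - u g ∈ B := sub_mem (h.sb g μ hμ) (h.ub g)

theorem m2 (g : G) {μ : V} {t : K} (hμ : μ ∈ B) (ht : 2 * t ∈ O) :
    2 * (t + η g + e (v g) (σ g μ)) ∈ O := by
  rw [mul_add, mul_add]
  exact add_mem (add_mem ht (h.half g)) (h.int _ (h.va g) _ (h.sb g μ hμ))

instance : MulAction G h.Om where
  smul g := Quotient.map (fun p => ⟨(σ g p.1.1 - u g, p.1.2 + η g + e (v g) (σ g p.1.1)),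
    h.m1 g p.2.1, h.m2 g p.2.1 p.2.2⟩) fun p q r => ⟨by
      simpa only [sub_sub_sub_cancel_right, map_sub] using st1 h.sb g r.1, by
      convert add_mem r.2 (e_r h.int (h.va g) (st1 h.sb g r.1)) using 1
      simp only [map_sub]
      ring⟩
  one_smul x := Quotient.inductionOn x fun p => Quotient.sound ⟨by
    simpa using coc_one h.cu, by
    convert add_mem h.eta_one (e_l h.int (coc_one h.cv) (h.sb 1 _ p.2.1)) using 1
    ring⟩
  mul_smul g k x := Quotient.inductionOn x fun p => Quotient.sound ⟨by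
    convert h.cu g k using 1
    simp only [d1, map_sub, map_mul, Module.End.mul_apply]
    abel, by
    have a := cy_mul h.cy1 g (h.half k)
    have b := cy_mul h.cy1 g (h.int _ (h.va k) _ (h.sb k _ p.2.1))
    have c := e_l h.int (h.cv g k) (h.sb (g * k) _ p.2.1)
    convert sub_mem (add_mem (add_mem (h.co g k) a) b) c using 1
    simp only [d1, d2, cup, map_sub, map_add, map_mul, Module.End.mul_apply, LinearMap.sub_apply,
      LinearMap.add_apply, h.eqv]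
    ring⟩

theorem smul_pt (g : G) {μ : V} {t : K} (hμ : μ ∈ B) (ht : 2 * t ∈ O) :
    g • h.pt hμ ht = h.pt (h.m1 g hμ) (h.m2 g hμ ht) := rfl

theorem fix_iff (g : G) {μ : V} {t : K} (hμ : μ ∈ B) (ht : 2 * t ∈ O) :
    g • h.pt hμ ht = h.pt hμ ht ↔ u g - d0 σ μ g ∈ sc B 1 ∧ η g + e (v g) (σ g μ) ∈ O := by
  rw [smul_pt, pt_eq, ← neg_mem_iff, d0]
  congr! 2
  · abel
  · ring

theorem fx_iff (g : G) : Fx e σ B v u η g ↔ ∃ x : h.Om, g • x = x := by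
  refine ⟨fun ⟨μ, a, b⟩ => ⟨h.pt a (t := 0) (by simp), (h.fix_iff g _ _).2 b⟩, fun ⟨x, hx⟩ => ?_⟩
  obtain ⟨μ, t, a, b, rfl⟩ := h.ex_pt x
  exact ⟨μ, a, (h.fix_iff g a b).1 hx⟩

theorem triv_iff (g : G) : (∀ x : h.Om, g • x = x) ↔
    Tr σ B g ∧ u g ∈ sc B 1 ∧ η g ∈ O ∧ ∀ b ∈ B, e (v g) (σ g b) ∈ O := by
  constructor
  · intro k
    have k0 := (h.fix_iff g B.zero_mem (t := 0) (by simp)).1 (k _)
    simp only [d0, map_zero, sub_zero, add_zero] at k0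
    refine ⟨fun b hb => ?_, k0.1, k0.2, fun b hb => ?_⟩
    · simpa using sub_mem k0.1 ((h.fix_iff g hb (t := 0) (by simp)).1 (k _)).1
    · simpa using sub_mem ((h.fix_iff g hb (t := 0) (by simp)).1 (k _)).2 k0.2
  · intro k x
    obtain ⟨μ, t, a, b, rfl⟩ := h.ex_pt x
    exact (h.fix_iff g a b).2 ⟨sub_mem k.2.1 (k.1 μ a), add_mem k.2.2.1 (k.2.2.2 μ a)⟩

theorem la : Hz cy σ 0 A A v v 0 :=
  ⟨h.cy1, h.sa, h.sa, by simp, by simp, h.va, h.va, h.cv, h.cv, by simp, by simp [cup, d2]⟩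

theorem lb : Hz cy σ 0 B B u u 0 :=
  ⟨h.cy1, h.sb, h.sb, by simp, by simp, h.ub, h.ub, h.cu, h.cu, by simp, by simp [cup, d2]⟩

/-- the kernel -/
def W : Subgroup G := (MulAction.toPermHom G h.la.Om).ker ⊓ (MulAction.toPermHom G h.Om).ker

instance : h.W.Normal := by unfold W; infer_instance

theorem mem_W {g : G} : g ∈ h.W ↔ Kn σ A B v u η g := by
  simp only [W, Subgroup.mem_inf, MonoidHom.mem_ker, Equiv.ext_iff, MulAction.toPermHom_apply,
    MulAction.toPerm_apply, Equiv.Perm.coe_one, id, triv_iff]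
  exact ⟨fun k => ⟨k.1.1, k.2.1, k.1.2.1, k.2.2.1, k.2.2.2.1⟩, fun k => ⟨⟨k.ta, k.va, by simp⟩,
    k.tb, k.ub, k.et, fun b hb => e_l h.int k.va (h.sb g b hb)⟩⟩

theorem act_eq {g g' : G} (h1 : ∀ b ∈ B, σ g b - σ g' b ∈ sc B 1) (h2 : u g - u g' ∈ sc B 1)
    (h3 : v g - v g' ∈ sc A 1) (h4 : η g - η g' ∈ O) (x : h.Om) : g • x = g' • x := by
  obtain ⟨μ, t, a, b, rfl⟩ := h.ex_pt x
  rw [h.smul_pt, h.smul_pt, h.pt_eq]
  refine ⟨?_, ?_⟩
  · convert sub_mem (h1 μ a) h2 using 1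
    abel
  · convert add_mem (add_mem h4 (e_l h.int h3 (h.sb g μ a))) (e_r h.int (h.va g') (h1 μ a)) using 1
    simp only [map_sub, LinearMap.sub_apply]
    ring

theorem val_mul (g : G) {k : G} {μ : V} (hμ : μ ∈ B) (hk : u k - d0 σ μ k ∈ sc B 1) :
    (η (g * k) + e (v (g * k)) (σ (g * k) μ)) - (η g + e (v g) (σ g μ)) -
      (η k + e (v k) (σ k μ)) ∈ O := by
  have h1 := mul_smul g k (h.pt hμ (t := 0) (by simp))
  have h2 : k • h.pt hμ (t := 0) (by simp) = h.pt hμ (h.m2 k hμ (t := 0) (by simp)) := by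
    rw [smul_pt, pt_eq]
    exact ⟨by convert neg_mem hk using 1; rw [d0]; abel, by simp⟩
  rw [h2, smul_pt, smul_pt, pt_eq] at h1
  convert h1.2 using 1
  ring

theorem uni {g : G} {μ : V} (hv : Cv σ A v g) (hμ : μ ∈ B) (hu : u g - d0 σ μ g ∈ sc B 1) :
    Fx e σ B v u η g ↔ η g + e (v g) (σ g μ) ∈ O := by
  refine ⟨fun ⟨ν, a, b, c⟩ => ?_, fun k => ⟨μ, hμ, hu, k⟩⟩
  obtain ⟨α, p, q⟩ := hv
  have r := sub_mem hμ a
  convert add_mem (add_mem c (e_l h.int q (h.sb g _ r))) (sub_mem (cy_mul h.cy1 g (h.int α p _ r))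
    (e_r h.int p (sub_mem b hu))) using 1
  simp only [d0, map_sub, LinearMap.sub_apply, h.eqv]
  ring

end Hz

theorem cv_iff (g : G) : Cv σ B u g ↔ Fx 0 σ B u u 0 g := by simp [Cv, Fx]

theorem mon_fix {X : Type} [MulAction G X] {W : Subgroup G} (hW : ∀ w ∈ W, ∀ x : X, w • x = x) :
    Mon W fun g => ∃ x : X, g • x = x := by
  rintro _ g ⟨k, n, w, hw, rfl⟩ ⟨x, hx⟩
  refine ⟨k • x, ?_⟩
  rw [mul_smul, hW w hw, mul_smul, inv_smul_smul, mul_smul,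
    show g ^ n • x = x from (MulAction.stabilizer G x).pow_mem hx n]

theorem idx_le {W : Subgroup G} {X : Type} [Finite X] (f : G → X)
    (hf : ∀ g g', f g = f g' → g⁻¹ * g' ∈ W) : W.FiniteIndex ∧ W.index ≤ Nat.card X := by
  have h : Function.Injective fun x : G ⧸ W => f x.out := fun x y e => by
    rw [← x.out_eq', ← y.out_eq']
    exact QuotientGroup.eq.2 (hf _ _ e)
  have := Finite.of_injective _ h
  exact ⟨Subgroup.finiteIndex_of_finite_quotient, Nat.card_le_card_of_injective _ h⟩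

theorem rd_eq {j : ℕ} {x y : V} : rd A j x = rd A j y ↔ x - y ∈ sc A j :=
  QuotientAddGroup.eq_iff_sub_mem

theorem sig {n : ℕ} (hs : ∀ g, ∀ a ∈ A, σ g a ∈ A) (hv : ∀ g, v g ∈ A)
    (hn : (rd A 1 '' (A : Set V)).encard ≤ n) : ∃ (X : Type) (_ : Finite X) (f : G → X),
    Nat.card X ≤ (n + 1) ^ (n + 1) ∧ ∀ g g', f g = f g' →
      (∀ a ∈ A, σ g a - σ g' a ∈ sc A 1) ∧ v g - v g' ∈ sc A 1 := by
  have f1 := Set.finite_of_encard_le_coe hn
  have := f1.to_subtype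
  have h1 : Nat.card (rd A 1 '' (A : Set V)) ≤ n := by
    rw [← f1.cast_ncard_eq] at hn
    exact_mod_cast hn
  choose r r1 r2 using fun q : rd A 1 '' (A : Set V) => q.2
  refine ⟨Option (rd A 1 '' (A : Set V)) → rd A 1 '' (A : Set V), inferInstance, fun g o =>
    o.elim ⟨_, _, hv g, rfl⟩ fun q => ⟨_, _, hs g _ (r1 q), rfl⟩, ?_, fun g g' k =>
    ⟨fun a ha => ?_, rd_eq.1 (congrArg Subtype.val (congrFun k none))⟩⟩
  · rw [Nat.card_fun, Finite.card_option]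
    exact (Nat.pow_le_pow_left (h1.trans n.le_succ) _).trans
      (Nat.pow_le_pow_right n.succ_pos (by omega))
  · have a1 := rd_eq.1 (congrArg Subtype.val (congrFun k (some ⟨_, a, ha, rfl⟩)))
    have a2 := rd_eq.1 (r2 ⟨_, a, ha, rfl⟩)
    convert add_mem (sub_mem a1 (st1 hs g a2)) (st1 hs g' a2) using 1
    simp only [map_sub]
    abel

theorem Hz.idx (h : Hz cy σ e A B v u η) {n : ℕ} (ha : (rd A 1 '' (A : Set V)).encard ≤ n)
    (hb : (rd B 1 '' (B : Set V)).encard ≤ n) :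
    h.W.FiniteIndex ∧ h.W.index ≤ 2 * (n + 1) ^ (2 * n + 2) := by
  obtain ⟨X, _, f, f1, f2⟩ := sig h.sa h.va ha
  obtain ⟨Y, _, k, k1, k2⟩ := sig h.sb h.ub hb
  refine (idx_le (fun g => (η g ∈ O, f g, k g)) fun g g' r => ?_).imp_right fun r => r.trans ?_
  · simp only [Prod.mk.injEq, eq_iff_iff] at r
    have r4 : η g - η g' ∈ O := by
      by_cases a : η g ∈ O
      · exact sub_mem a (r.1.1 a)
      · convert sub_mem (o_dich (h.half g) (h.half g') a (mt r.1.2 a)) (h.half g') using 1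
        ring
    exact ⟨Equiv.ext fun x => (mul_smul _ _ x).trans (inv_smul_eq_iff.2 (h.la.act_eq
      (f2 g g' r.2.1).1 (f2 g g' r.2.1).2 (f2 g g' r.2.1).2 (by simp) x).symm),
      Equiv.ext fun x => (mul_smul _ _ x).trans (inv_smul_eq_iff.2 (h.act_eq
      (k2 g g' r.2.2).1 (k2 g g' r.2.2).2 (f2 g g' r.2.1).2 r4 x).symm)⟩
  · rw [Nat.card_prod, Nat.card_prod, Nat.card_eq_fintype_card (α := Prop), Fintype.card_prop,
      show 2 * n + 2 = n + 1 + (n + 1) by ring, pow_add]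
    exact Nat.mul_le_mul_left 2 (Nat.mul_le_mul f1 k1)

theorem hz0 (hs : ∀ g, ∀ a ∈ A, σ g a ∈ A) (hv : ∀ g, v g ∈ A) (hc : ∀ g h, d1 σ v g h ∈ sc A 1) :
    Hz 1 σ 0 A A v v 0 :=
  ⟨by simp, hs, hs, by simp, by simp, hv, hv, hc, hc, by simp, by simp [cup, d2]⟩

/-- the elements which act trivially modulo two -/
def TrS (hs : ∀ g, ∀ a ∈ A, σ g a ∈ A) : Subgroup G :=
  (hz0 (v := 0) hs (by simp) (by simp [d1])).W

theorem mem_TrS {hs : ∀ g, ∀ a ∈ A, σ g a ∈ A} {g : G} : g ∈ TrS hs ↔ Tr σ A g :=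
  (Hz.mem_W _).trans ⟨fun k => k.ta, fun k => ⟨k, k, by simp, by simp, by simp⟩⟩

theorem cm1 (hs : ∀ g, ∀ a ∈ A, σ g a ∈ A) (hv : ∀ g, v g ∈ A) (hc : ∀ g h, d1 σ v g h ∈ sc A 1)
    (t : G) {h : G} (ht : Tr σ A h) : Tr σ A (cm t h) ∧ v (cm t h) - d0 σ (v h) t ∈ sc A 1 := by
  have n : (TrS hs).Normal := by unfold TrS; infer_instance
  have a := n.conj_mem h (mem_TrS.2 ht) t
  refine ⟨mem_TrS.1 (mul_mem a (inv_mem (mem_TrS.2 ht))), ?_⟩
  have b := add_mem (add_mem (hc (t * h * t⁻¹) h⁻¹) (hc (t * h) t⁻¹)) (hc t h)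
  have c := add_mem (add_mem (hc t t⁻¹) (hc h h⁻¹)) (add_mem (coc_one hc) (coc_one hc))
  have d := sub_mem (add_mem (mem_TrS.1 a _ (hv h⁻¹)) (st1 hs t (ht _ (hv t⁻¹)))) (ht _ (hv h⁻¹))
  convert add_mem (sub_mem c b) d using 1
  simp only [d1, d0, cm, mul_inv_cancel, map_sub, map_mul σ t h, Module.End.mul_apply]
  abel

theorem Hz.cm2 (h : Hz cy σ e A B v u η) {g k : G} (ga : Tr σ A g) (gb : Tr σ B g) (ka : Tr σ A k)
    (kb : Tr σ B k) : η (cm g k) - (e (v g) (u k) + e (v k) (u g)) ∈ O := by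
  have a : v (cm g k) ∈ sc A 1 := by
    simpa using add_mem (cm1 h.sa h.va h.cv g ka).2 (ga _ (h.va k))
  have b := add_mem (sub_mem (h.co k g) (h.co g k)) (sub_mem (h.co (cm g k) (k * g))
    (e_l h.int a (h.sb (cm g k) _ (h.ub (k * g)))))
  have c := add_mem (sub_mem (cy_mul h.cy1 k (h.half g)) (cy_mul h.cy1 g (h.half k)))
    (cy_mul h.cy1 (cm g k) (h.half (k * g)))
  have d := sub_mem (sub_mem (e_r h.int (h.va g) (gb _ (h.ub k))) (e_r h.int (h.va k)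
    (kb _ (h.ub g)))) (h.int _ (h.va k) _ (h.ub g))
  convert add_mem (add_mem d (add_mem b c)) (h.half (cm g k)) using 1
  simp only [cup, d2, d0, map_sub, show cm g k * (k * g) = g * k by simp [cm, mul_assoc]]
  ring

end Vale.Agent.P004S.Ga.He
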