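import Vale.Agent.P004S.G.St
import Vale.Agent.P004S.G.He0

/-!
# P004S, Galois half: row HEIS
-/

set_option linter.all false

noncomputable section

namespace Vale.Agent.P004S.Ga

open Topology

variable {G : Type} [Group G] [TopologicalSpace G] {V : Type} [AddCommGroup V] [Module K V]
  [TopologicalSpace V] [IsTopologicalAddGroup V] [ContinuousSMul K V]
  {cy : G →* K} {σ : Representation K G V} {e : V →ₗ[K] V →ₗ[K] K} {A B : AddSubgroup V}
  {v u : G → V} {η : G → K} {n : ℕ}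

namespace He

theorem sc_open (h : IsOpen (A : Set V)) (j : ℕ) : IsOpen (sc A j : Set V) :=
  h.preimage (continuous_const_smul ((2 : K) ^ j)⁻¹)

theorem tr_open (hc : Ct σ) (h : Lt σ A n) : IsOpen {g | Tr σ A g} := by
  have := (Set.finite_of_encard_le_coe h.fin).to_subtype
  choose r r1 r2 using fun q : rd A 1 '' (A : Set V) => q.2
  have : {g | Tr σ A g} = ⋂ q, (d0 σ (r q)) ⁻¹' sc A 1 := by
    refine Set.ext fun g => ⟨fun k => Set.mem_iInter.2 fun q => k _ (r1 q), fun k a ha => ?_⟩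
    have a2 := rd_eq.1 (r2 ⟨_, a, ha, rfl⟩)
    convert add_mem (sub_mem (Set.mem_iInter.1 k ⟨_, a, ha, rfl⟩ :) (st1 h.st g a2)) a2 using 1
    simp only [d0, map_sub]
    abel
  rw [this]
  exact isOpen_iInter_of_finite fun q => (sc_open h.opn 1).preimage
    ((hc.comp (continuous_id.prodMk continuous_const)).sub continuous_const)

theorem cj_cont {j : ℕ} (h : Cj ⊤ σ A j v) : Continuous v :=
  continuousOn_univ.1 (by simpa using h.cont)

theorem hz (hc : ∀ g, 2⁻¹ * (cy g - 1) ∈ O) (h : Hs cy σ e A B n v u η) : Hz cy σ e A B v u η :=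
  ⟨hc, h.pm.la.st, h.pm.lb.st, h.pm.pr.eqv, h.pm.pr.int, fun g => h.cv.mem g trivial,
    fun g => h.cu.mem g trivial, fun g k => h.cv.coc g trivial k trivial,
    fun g k => h.cu.coc g trivial k trivial, h.half, h.co⟩

theorem hzc (h : Lt σ A n) (hv : Cj ⊤ σ A 1 v) : Hz 1 σ 0 A A v v 0 :=
  hz0 h.st (fun g => hv.mem g trivial) fun g k => hv.coc g trivial k trivial

theorem kn_open (h : Hs cy σ e A B n v u η) : IsOpen {g | Kn σ A B v u η g} := by
  have : {g | Kn σ A B v u η g} = {g | Tr σ A g} ∩ {g | Tr σ B g} ∩ v ⁻¹' sc A 1 ∩ u ⁻¹' sc B 1 ∩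
      η ⁻¹' O := Set.ext fun g => ⟨fun k => ⟨⟨⟨⟨k.1, k.2⟩, k.3⟩, k.4⟩, k.5⟩,
    fun k => ⟨k.1.1.1.1, k.1.1.1.2, k.1.1.2, k.1.2, k.2⟩⟩
  rw [this]
  exact ((((tr_open h.pm.ct h.pm.la).inter (tr_open h.pm.ct h.pm.lb)).inter
    ((sc_open h.pm.la.opn 1).preimage (cj_cont h.cv))).inter
    ((sc_open h.pm.lb.opn 1).preimage (cj_cont h.cu))).inter (o_open.preimage h.cont)

theorem cv_mul (h : Hz 1 σ 0 A A v v 0) {t : G} (g : G) (ht : Tr σ A t) (hv : v t ∈ sc A 1) :
    Cv σ A v (g * t) ↔ Cv σ A v g := by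
  simp only [cv_iff, h.fx_iff, mul_smul, (h.triv_iff t).2 ⟨ht, hv, by simp, by simp⟩]

theorem mon_cv (h : Hz 1 σ 0 A A v v 0) {W : Subgroup G} (hW : ∀ w ∈ W, Tr σ A w ∧ v w ∈ sc A 1) :
    Mon W (Cv σ A v) := by
  have := mon_fix (X := h.Om) (W := W) fun w hw =>
    (h.triv_iff w).2 ⟨(hW w hw).1, (hW w hw).2, by simp, by simp⟩
  intro g g' r k
  rw [cv_iff, h.fx_iff] at k ⊢
  exact this g g' r k

end He

open He

theorem heis (𝔞 : Ar G) (V : Type) [AddCommGroup V] [Module K V] [TopologicalSpace V]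
    [IsTopologicalAddGroup V] [ContinuousSMul K V] : HEIS 𝔞 V where
  ker σ e A B n v u η h := by
    have z := hz 𝔞.cy_one h
    have i := z.idx h.pm.la.fin h.pm.lb.fin
    refine ⟨z.W, fun g => z.mem_W, ⟨inferInstance, ?_, i.1, i.2⟩,
      mon_cv (hzc h.pm.la h.cv) fun w k => ⟨(z.mem_W.1 k).ta, (z.mem_W.1 k).va⟩,
      mon_cv (hzc h.pm.lb h.cu) fun w k => ⟨(z.mem_W.1 k).tb, (z.mem_W.1 k).ub⟩, fun g g' r k => ?_⟩
    · convert kn_open h using 1
      exact Set.ext fun g => z.mem_W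
    · rw [z.fx_iff] at k ⊢
      exact mon_fix (X := z.Om) (W := z.W) (fun w hw x => Equiv.ext_iff.1 hw.2 x) g g' r k
  cv σ A n v t g h hv ht hvt := cv_mul (hzc h hv) g ht hvt
  uni σ e A B n v u η g μ h a b c := (hz 𝔞.cy_one h).uni a b c
  flip σ e A B n v u η t g h ta tb va ub ht a b := by
    have z := hz 𝔞.cy_one h
    obtain ⟨μ, m, k⟩ := b
    have k1 : u t - d0 σ μ t ∈ sc B 1 := sub_mem ub (tb μ m)
    have k2 : u (g * t) - d0 σ μ (g * t) ∈ sc B 1 := by
      convert sub_mem (add_mem k (st1 z.sb g k1)) (z.cu g t) using 1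
      simp only [d0, d1, map_sub, map_mul, Module.End.mul_apply]
      abel
    have k3 := add_mem (z.val_mul g m k1) (e_l z.int va (z.sb t μ m))
    have k4 := z.m2 g m (t := 0) (by simp)
    rw [z.uni ((cv_mul (hzc h.pm.la h.cv) g ta va).2 a) m k2, z.uni a m k]
    refine ⟨fun p q => ht ?_, fun q => ?_⟩
    · convert sub_mem (sub_mem p q) k3 using 1
      ring
    · convert add_mem k3 (o_dich (by simpa using k4) (z.half t) q ht) using 1
      ring
  cm1 σ A n v t k h hv ht :=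
    cm1 h.st (fun g => hv.mem g trivial) (fun g k => hv.coc g trivial k trivial) t ht
  cm2 σ e A B n v u η g k h a b c d := (hz 𝔞.cy_one h).cm2 a b c d
  chr σ e A B n v u η D μ h m k g _ g' a := (hz 𝔞.cy_one h).val_mul g m (k g' a)

end Vale.Agent.P004S.Ga
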