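import Vale.Agent.P004S.G.Heis
import Vale.Agent.P004S.G.Cube

/-!
# P004S, Galois half: row HEX
-/

set_option linter.all false

noncomputable section

namespace Vale.Agent.P004S.Ga

open Finset Topology He

variable {G : Type} [Group G] [TopologicalSpace G] {V : Type} [AddCommGroup V] [Module K V]
  [TopologicalSpace V] [IsTopologicalAddGroup V] [ContinuousSMul K V]
  {cy : G →* K} {σ : Representation K G V} {e : V →ₗ[K] V →ₗ[K] K} {A B : AddSubgroup V}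
  {v u : G → V} {η : G → K} {n : ℕ} {𝔞 : Ar G}

namespace He

theorem qc_mul {χ χ' : G →* K} (h : Qc χ) (h' : Qc χ') : Qc (χ * χ') :=
  ⟨fun g => by rcases h.sq g with a | a <;> rcases h'.sq g with b | b <;> simp [a, b],
    h.cont.mul h'.cont⟩

theorem qc_prod {ι : Type} (I : Finset ι) {χ : ι → G →* K} (h : ∀ i, Qc (χ i)) :
    Qc (∏ i ∈ I, χ i) :=
  prod_induction _ _ (fun _ _ => qc_mul) ⟨fun _ => .inl rfl, continuous_const⟩ fun i _ => h i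

theorem hs0 (hc : Ct σ) (h : Lt σ A n) (hv : Cj ⊤ σ A 1 v) : Hs 1 σ 0 A A n v v 0 :=
  ⟨⟨hc, h, h, by simp, by simp, by simpa using continuous_const⟩, hv, hv, continuous_const,
    by simp, by simp [cup, d2]⟩

theorem tam0 (hc : ∀ g, 2⁻¹ * (cy g - 1) ∈ O) (h : Hs cy σ e A B n v u η) {p : ℕ} (hp : p.Prime)
    (h2 : p ≠ 2) (ht : Kn σ A B v u η (𝔞.τ p)) (hi : ∀ i ∈ 𝔞.I p, Kn σ A B v u η (i * i)) :
    ∀ i ∈ 𝔞.I p, Kn σ A B v u η i := fun i k => by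
  have z := hz hc h
  refine z.mem_W.1 (𝔞.tam p hp h2 z.W (mem_nhdsWithin_of_mem_nhds ?_) (z.mem_W.2 ht)
    (fun i k => z.mem_W.2 (hi i k)) k)
  rw [show (z.W : Set G) = {g | Kn σ A B v u η g} from Set.ext fun g => z.mem_W]
  exact (kn_open h).mem_nhds (z.mem_W.1 z.W.one_mem)

theorem tam1 (hc : Ct σ) (h : Lt σ A n) (hv : Cj ⊤ σ A 1 v) {p : ℕ} (hp : p.Prime) (h2 : p ≠ 2)
    (ht : ∀ i ∈ 𝔞.I p, Tr σ A i) (h1 : v (𝔞.τ p) ∈ sc A 1) : ∀ i ∈ 𝔞.I p, v i ∈ sc A 1 := by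
  refine fun i k => (tam0 (by simp) (hs0 hc h hv) hp h2 ⟨ht _ (𝔞.τ_mem p), ht _ (𝔞.τ_mem p), h1, h1,
    by simp⟩ (fun i k => ?_) i k).va
  have a : v (i * i) ∈ sc A 1 := by
    convert sub_mem (add_mem (ht i k _ (hv.mem i trivial)) (sc1_two (hv.mem i trivial)))
      (hv.coc i trivial i trivial) using 1
    simp only [d0, d1]
    abel
  exact ⟨ht _ (mul_mem k k), ht _ (mul_mem k k), a, a, by simp⟩

/-- Heisenberg data are unramified as soon as they vanish at `τ` -/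
theorem tam2 (h : Hs 𝔞.cy σ e A B n v u η) {p : ℕ} (hp : p.Prime) (h2 : p ≠ 2)
    (ha : ∀ i ∈ 𝔞.I p, Tr σ A i) (hb : ∀ i ∈ 𝔞.I p, Tr σ B i) (h1 : v (𝔞.τ p) ∈ sc A 1)
    (h3 : u (𝔞.τ p) ∈ sc B 1) (h4 : η (𝔞.τ p) ∈ O) : ∀ i ∈ 𝔞.I p, Kn σ A B v u η i := by
  have a := tam1 h.pm.ct h.pm.la h.cv hp h2 ha h1
  have b := tam1 h.pm.ct h.pm.lb h.cu hp h2 hb h3
  refine tam0 𝔞.cy_one h hp h2 ⟨ha _ (𝔞.τ_mem p), hb _ (𝔞.τ_mem p), h1, h3, h4⟩ fun i k =>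
    ⟨ha _ (mul_mem k k), hb _ (mul_mem k k), a _ (mul_mem k k), b _ (mul_mem k k), ?_⟩
  convert add_mem ((hz 𝔞.cy_one h).val_mul i B.zero_mem (by simpa [d0] using b i k)) (h.half i)
    using 1
  simp only [map_zero]
  ring

theorem z2_cup (h : Pm cy σ e A B n) (hv : Cj ⊤ σ A 1 v) (hu : Cj ⊤ σ B 1 u) :
    Z2 cy ⊤ (cup e σ v u) where
  cont := (h.pr.cont.comp (((cj_cont hv).comp continuous_fst).prodMk (h.ct.comp
    (continuous_fst.prodMk ((cj_cont hu).comp continuous_snd))))).continuousOn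
  coc g _ k _ l _ := by
    convert sub_mem (e_l h.pr.int (hv.coc g trivial k trivial) (h.lb.st (g * k) _ (hu.mem l trivial)))
      (e_r h.pr.int (hv.mem g trivial) (st1 h.lb.st g (hu.coc k trivial l trivial))) using 1
    simp only [d3, d1, cup, map_sub, map_add, map_mul, Module.End.mul_apply, LinearMap.sub_apply,
      LinearMap.add_apply, h.pr.eqv]
    ring

theorem b2_sum {ι : Type} (I : Finset ι) {D : Subgroup G} {z : ι → G → G → K} {c : ι → K}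
    (hc : ∀ i, c i ∈ O) (h : ∀ i, B2 cy D (z i)) : B2 cy D fun g k => ∑ i ∈ I, c i * z i g k := by
  choose θ h1 h2 using h
  refine ⟨fun g => ∑ i ∈ I, c i * θ i g, continuousOn_finsetSum _ fun i _ =>
    continuousOn_const.mul (h1 i), fun g a k b => ?_⟩
  convert sum_mem fun i (_ : i ∈ I) => o_mul (hc i) (h2 i g a k b) using 1
  simp only [d2, mul_sum, ← sum_sub_distrib, ← sum_add_distrib]
  exact sum_congr rfl fun i _ => by ring

/-- the trivialisation can be chosen integral at all tame generators outside `T` -/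
theorem fix_eta (h : Hs 𝔞.cy σ e A B n v u η) :
    ∃ η, Hs 𝔞.cy σ e A B n v u η ∧ ∀ p, p.Prime → p ≠ 2 → η (𝔞.τ p) ∈ O := by
  classical
  have f := (𝔞.fin (η ⁻¹' O) ((o_open.preimage h.cont).mem_nhds (hz 𝔞.cy_one h).eta_one)).subset
    (t := {p | η (𝔞.τ p) ∉ O ∧ p.Prime}) fun p k => ⟨k.2, fun r => k.1 (r (𝔞.τ_mem p))⟩
  have k1 : ∀ p g, 2⁻¹ * (1 - 𝔞.κ p g) ∈ O := fun p g => by
    rcases (𝔞.κ_qc p).sq g with a | a <;> rw [a]
    · simp
    · convert o_one using 1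
      norm_num
  have k2 : ∀ p g, 2 * (4⁻¹ * (1 - 𝔞.κ p g)) ∈ O := fun p g => by
    convert k1 p g using 1
    ring
  refine ⟨fun g => η g + ∑ p ∈ f.toFinset, 4⁻¹ * (1 - 𝔞.κ p g), ⟨h.pm, h.cv, h.cu,
    h.cont.add (continuous_finsetSum _ fun p _ => continuous_const.mul
      (continuous_const.sub (𝔞.κ_qc p).cont)), fun g => ?_, fun g k => ?_⟩, fun p a b => ?_⟩
  · rw [mul_add, mul_sum]
    exact add_mem (h.half g) (sum_mem fun p _ => k2 p g)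
  · convert sub_mem (h.co g k) (sum_mem fun p (_ : p ∈ f.toFinset) =>
      add_mem (cy_mul 𝔞.cy_one g (k2 p k)) (o_mul (k1 p g) (k1 p k))) using 1
    simp only [d2, mul_add]
    rw [sub_sub, mul_sum, add_sub_add_comm, add_add_add_comm, ← sum_sub_distrib, ← sum_add_distrib]
    congr 2
    exact sum_congr rfl fun p _ => by rw [map_mul]; ring
  · beta_reduce
    rw [sum_eq_ite (f := fun q => 4⁻¹ * (1 - 𝔞.κ q (𝔞.τ p))) p fun q _ r => by
      simp [𝔞.κ_ur q p a b r.symm _ (𝔞.τ_mem p)]]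
    split_ifs with c
    · rw [𝔞.κ_τ p a b, show (4⁻¹ * (1 - -1) : K) = 2⁻¹ by norm_num]
      exact o_dich (h.half _) (by simpa using o_one) (f.mem_toFinset.1 c).1 half_not
    · rw [add_zero]
      exact by_contra fun r => c (f.mem_toFinset.2 ⟨r, a⟩)

variable {ι : Type} [DecidableEq ι] {s : Sy 𝔞 V} {d : Dat G ι} {J : Finset ι} {y z : ι → ℕ}

theorem qc_ch (h : d.Ok s) (x : ι → ℕ) : Qc (d.ch 𝔞 x) := qc_mul h.qc (qc_prod _ fun _ => 𝔞.κ_qc _)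

theorem ne_two (h : d.Ok s) {p : ℕ} (hp : p ∉ d.T) : p ≠ 2 := fun r => hp (r ▸ h.sub s.two)

theorem ch_ur (h : d.Ok s) (x : ι → ℕ) (p : ℕ) (hp : p.Prime) (k : p ∉ d.sp x) :
    ∀ i ∈ 𝔞.I p, d.ch 𝔞 x i = 1 := fun i a => by
  simp only [Dat.sp, mem_union, mem_image, not_or, not_exists, not_and] at k
  rw [Dat.ch, MonoidHom.mul_apply, h.ur p hp k.1 i a, one_mul, MonoidHom.finset_prod_apply]
  exact prod_eq_one fun j b => 𝔞.κ_ur _ p hp (ne_two h k.1) (Ne.symm (k.2 j b)) i a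

theorem ch_τ (h : d.Ok s) {x : ι → ℕ} (hx : ∀ i, x i ∈ d.X i) :
    ∀ p ∈ d.sp x, p.Prime → p ∉ d.T → d.ch 𝔞 x (𝔞.τ p) = -1 := fun p a hp k => by
  obtain ⟨i, b, rfl⟩ := mem_image.1 ((mem_union.1 a).resolve_left k)
  rw [Dat.ch, MonoidHom.mul_apply, h.ur _ hp k _ (𝔞.τ_mem _), one_mul, MonoidHom.finset_prod_apply,
    prod_eq_single_of_mem i b fun j c r => 𝔞.κ_ur _ _ hp (ne_two h k) (fun q =>
      disjoint_left.1 (h.dj i b j c r.symm) (hx i) (q ▸ hx j)) _ (𝔞.τ_mem _),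
    𝔞.κ_τ _ hp (ne_two h k)]

theorem cu_cor (h : d.Ok s) (hJ : J ⊆ d.I) : Cu J fun w => d.ch 𝔞 (cor J y z w) := by
  refine ⟨fun w => qc_ch h _, fun i => 𝔞.κ (z i) * 𝔞.κ (y i), fun i =>
    qc_mul (𝔞.κ_qc _) (𝔞.κ_qc _), fun w k => ?_⟩
  simp only [Dat.ch, cor, empty_inter, piecewise_empty, inter_eq_left.2 k]
  rw [mul_assoc, ← inter_eq_right.2 (k.trans hJ), ← prod_ite_mem, ← prod_mul_distrib,
    inter_eq_right.2 (k.trans hJ)]
  refine congrArg _ (prod_congr rfl fun i _ => ?_)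
  split_ifs with a
  · ext g
    rw [piecewise_eq_of_mem _ _ _ a]
    rcases (𝔞.κ_qc (y i)).sq g with b | b <;> simp [b]
  · rw [piecewise_eq_of_notMem _ _ _ a, mul_one]

theorem cor_mem {Y : Set (ι → ℕ)} (h : ∀ w ⊆ J, cor J y z w ∈ Y) (w : Finset ι) :
    cor J y z w ∈ Y := by
  have := h (w ∩ J) inter_subset_right
  rwa [cor, inter_assoc, inter_self] at this

variable {m : ℕ} {vh : G → V} {lf : (ι → ℕ) → G → V} {Y : Set (ι → ℕ)}

theorem cj_fv (h : d.Mo s A m vh lf Y) (hm : J.card ≤ m) (hY : ∀ w ⊆ J, cor J y z w ∈ Y)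
    (k : ∀ g, fv lf (cor J y z) g ∈ AA J A) :
    Cj ⊤ (d.fσ s (cor J y z)) (AA J A) 1 (fv lf (cor J y z)) :=
  ⟨continuousOn_pi.2 fun w => (h.lft _ (cor_mem hY w)).sel.cj.cont, fun g _ => k g,
    fun g a g' b => AA_of_val fun w r => sc_anti A (Nat.succ_le_succ hm)
      ((h.lft _ (hY w r)).sel.cj.coc g a g' b)⟩

theorem cor_ne {b : ι} {p : ℕ} (h : ∀ i ∈ d.I, i ≠ b → p ≠ cor J y z ∅ i ∧ p ≠ cor J y z J i)
    (w : Finset ι) : ∀ i ∈ d.I, i ≠ b → p ≠ cor J y z w i := fun i a r => by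
  by_cases k : i ∈ w ∩ J
  · simpa only [cor, inter_self, piecewise_eq_of_mem _ _ _ k,
      piecewise_eq_of_mem _ _ _ (mem_inter.1 k).2] using (h i a r).2
  · simpa only [cor, empty_inter, piecewise_empty, piecewise_eq_of_notMem _ _ _ k] using (h i a r).1

theorem cor_b {b : ι} (h : b ∉ J) (w : Finset ι) : cor J y z w b = y b :=
  piecewise_eq_of_notMem _ _ _ fun k => h (mem_inter.1 k).2

theorem fv_τ (h : d.Mo s A m vh lf Y) (hm : J.card + 1 ≤ m) (hY : ∀ w ⊆ J, cor J y z w ∈ Y) {b : ι}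
    (hb : b ∈ d.I) (hJ : b ∉ J) {p : ℕ} (hp : p.Prime) (hT : p ∉ d.T)
    (k : ∀ w, ∀ i ∈ d.I, i ≠ b → p ≠ cor J y z w i) :
    fv lf (cor J y z) (𝔞.τ p) ∈ sc (AA J A) 1 := by
  by_cases a : p = y b
  · have c := hY ∅ (empty_subset J)
    rw [← sub_add_cancel (fv lf _ _) fun _ => lf (cor J y z ∅) (𝔞.τ p)]
    refine add_mem (AA_of_val fun w r => sc_anti A hm ?_) (AA_const ?_)
    · have := h.ta _ (hY w r) _ c b hb
      rwa [cor_b hJ, cor_b hJ, ← a] at this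
    · simpa using add_mem ((h.lft _ c).eq (𝔞.τ p)) (h.ur p hp hT)
  · refine AA_of_val fun w r => sc_anti A (hm.trans m.le_succ)
      ((h.lft _ (hY w r)).sel.ur p hp (fun c => ?_) _ (𝔞.τ_mem p))
    obtain ⟨i, i1, i2⟩ := mem_image.1 ((mem_union.1 c).resolve_left hT)
    by_cases q : i = b
    · exact a (by rw [← i2, q, cor_b hJ])
    · exact k w i i1 q i2.symm

theorem fσ_tr (h : d.Ok s) {b : ι} (hJ : b ∉ J) {p : ℕ} (hp : p.Prime) (hT : p ∉ d.T)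
    (k : ∀ w, ∀ i ∈ d.I, i ≠ b → p ≠ cor J y z w i) (A : AddSubgroup V) :
    ∀ i ∈ 𝔞.I p, Tr (d.fσ s (cor J y z)) (AA J A) i := fun i a => by
  refine tr_cu (fun x _ => by simp [d0, s.ur p hp (mt (h.sub ·) hT) i a]) ((qc_ch h _).sq i)
    fun w _ => ?_
  simp only [Dat.ch, MonoidHom.mul_apply, MonoidHom.finset_prod_apply]
  refine congrArg _ (prod_congr rfl fun j c => ?_)
  by_cases q : j = b
  · rw [q, cor_b hJ, cor_b hJ]
  · rw [𝔞.κ_ur _ p hp (ne_two h hT) (k w j c q) i a, 𝔞.κ_ur _ p hp (ne_two h hT) (k ∅ j c q) i a]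

end He

theorem hex {ι : Type} [DecidableEq ι] {s : Sy 𝔞 V} (hk : KEY s ι) (hl : LOCS s) : HEX s ι := by
  intro d A B n m vh uh la lb Y J b y z hd hp ha hb hJ b1 b2 hm hz hY
  have hm' : J.card ≤ m := by omega
  have pm := pm_cu (cu_cor (y := y) (z := z) hd hJ) hp
  have ca := cj_fv ha hm' hY (hk d A n m vh la Y J y z hd hp.ct hp.la ha hJ hm' hz hY)
  have cb := cj_fv hb hm' hY (hk d B n m uh lb Y J y z hd hp.ct hp.lb hb hJ hm' hz hY)
  obtain ⟨η, e1, e2, e3⟩ := 𝔞.has _ (z2_cup pm ca cb) (fun g k => pm.pr.int _ (ca.mem g trivial) _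
    (pm.lb.st g _ (cb.mem k trivial))) fun v hv => by
      have c := cor_mem hY
      convert b2_sum J.powerset (c := fun w => (-1) ^ w.card) (fun w => (PadicInt.subring 2).pow_mem
        (neg_mem (one_mem _)) _) fun w => hl.p1 A B n _ v m _ _ hp (qc_ch hd _) hv
        (hl.all A n _ m _ _ _ hp.ct hp.la (qc_ch hd _) hd.sub (ch_ur hd _)
          (ch_τ hd (ha.pt _ (c w)).mem) (ha.lft _ (c w)).sel v hv)
        (hl.all B n _ m _ _ _ hp.ct hp.lb (qc_ch hd _) hd.sub (ch_ur hd _)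
          (ch_τ hd (ha.pt _ (c w)).mem) (hb.lft _ (c w)).sel v hv)
        (fun g _ => (ha.lft _ (c w)).sel.cj.mem g trivial)
        fun g _ => (hb.lft _ (c w)).sel.cj.mem g trivial using 3 with g k
      rw [cup, pc_apply, mul_sum]
      refine sum_congr rfl fun w _ => ?_
      rw [lv, ← hm, pow_succ, mul_inv, inv_mul_cancel_right₀ two_ne_zero, mul_left_comm]
      rfl
  obtain ⟨η, f1, f2⟩ := fix_eta ⟨pm, ca, cb, e1, e2, e3⟩
  exact ⟨η, f1, fun p p1 p2 k => tam2 f1 p1 (ne_two hd p2) (fσ_tr hd b2 p1 p2 (cor_ne k) A)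
    (fσ_tr hd b2 p1 p2 (cor_ne k) B) (fv_τ ha hm.le hY b1 b2 p1 p2 (cor_ne k))
    (fv_τ hb hm.le hY b1 b2 p1 p2 (cor_ne k)) (f2 p p1 (ne_two hd p2))⟩

end Vale.Agent.P004S.Ga
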