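import Vale.Agent.P004S.G.Defs

/-!
# P004S, Galois half: the rows (helper61, note 288)

All rows are proved under `[IsTopologicalGroup G] [IsTopologicalAddGroup V] [ContinuousSMul K V]`.
-/

set_option linter.all false

noncomputable section

namespace Vale.Agent.P004S.Ga

open Finset Topology
open scoped Classical

/-- the bound for the index of the kernel of Heisenberg data -/
def hb (n : ℕ) : ℕ := 2 * (n + 1) ^ (2 * n + 2)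

section mod

variable {G : Type} [Group G] [TopologicalSpace G] (𝔞 : Ar G) (V : Type) [AddCommGroup V]
  [Module K V] [TopologicalSpace V]

/-- a cocycle on tame inertia is determined by its value at `τ` -/
def LOC0 : Prop := ∀ (σ : Representation K G V) (A : AddSubgroup V) (n p j : ℕ) (ψ : G → V),
  Lt σ A n → p.Prime → p ≠ 2 → (∀ i ∈ 𝔞.I p, Tr σ A i) → Cj (𝔞.I p) σ A j ψ →
  ψ (𝔞.τ p) ∈ sc A j → ∀ i ∈ 𝔞.I p, ψ i ∈ sc A j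

/-- an unramified cocycle is determined by its value at Frobenius -/
def DEN : Prop := ∀ (σ : Representation K G V) (N : AddSubgroup V) (p : ℕ) (φ : G → V), p.Prime →
  IsOpen (N : Set V) → (∀ g, ∀ x ∈ N, σ g x ∈ N) → ContinuousOn φ (𝔞.D p) →
  (∀ g ∈ 𝔞.D p, ∀ h ∈ 𝔞.D p, d1 σ φ g h ∈ N) → (∀ i ∈ 𝔞.I p, φ i ∈ N) → φ (𝔞.F p) ∈ N →
  ∀ g ∈ 𝔞.D p, φ g ∈ N

/-- a relaxed cocycle of level `j + 1` is a coboundary at level `j` -/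
def LOC1 : Prop := ∀ (σ : Representation K G V) (A : AddSubgroup V) (n p j : ℕ) (ψ : G → V),
  Ct σ → Lt σ A n → p.Prime → p ≠ 2 → (∀ i ∈ 𝔞.I p, σ i = 1 ∨ σ i = -1) → σ (𝔞.τ p) = -1 →
  Cj (𝔞.D p) σ A (j + 1) ψ →
  (∀ g ∈ 𝔞.D p, ψ g - d0 σ (-((2 : K)⁻¹ • ψ (𝔞.τ p))) g ∈ sc A j) ∧
    ∀ i ∈ 𝔞.I p, ψ i - d0 σ (-((2 : K)⁻¹ • ψ (𝔞.τ p))) i ∈ sc A (j + 1)

/-- the cup product of two cocycles of level `j` -/
structure PAIR : Prop where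
  p0 : ∀ (σ : Representation K G V) e A B n D j ψ y, Pm 𝔞.cy σ e A B n → Cj D σ A j ψ →
    Cj D σ B j y → Z2 𝔞.cy D (lv e σ j ψ y)
  pl : ∀ (σ : Representation K G V) e A B n D j ψ y a, Pm 𝔞.cy σ e A B n → a ∈ A → Cj D σ B j y →
    (∀ g ∈ D, ψ g - d0 σ a g ∈ sc A j) → B2 𝔞.cy D (lv e σ j ψ y)
  pr : ∀ (σ : Representation K G V) e A B n D j ψ y β, Pm 𝔞.cy σ e A B n → β ∈ B → Cj D σ A j ψ →
    (∀ g ∈ D, y g - d0 σ β g ∈ sc B j) → B2 𝔞.cy D (lv e σ j ψ y)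
  p3 : ∀ (σ : Representation K G V) e A B n D j ψ y a β, Pm 𝔞.cy σ e A B n → a ∈ A → β ∈ B →
    1 ≤ j → Cj D σ A (j + 1) ψ → Cj D σ B (j + 1) y → (∀ g ∈ D, ψ g - d0 σ a g ∈ sc A j) →
    (∀ g ∈ D, y g - d0 σ β g ∈ sc B j) → B2 𝔞.cy D (lv e σ (j + 1) ψ y)

/-- Heisenberg data -/
structure HEIS : Prop where
  ker : ∀ (σ : Representation K G V) e A B n v u η, Hs 𝔞.cy σ e A B n v u η →
    ∃ W : Subgroup G, (∀ g, g ∈ W ↔ Kn σ A B v u η g) ∧ Lv W (hb n) ∧ Mon W (Cv σ A v) ∧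
      Mon W (Cv σ B u) ∧ Mon W (Fx e σ B v u η)
  cv : ∀ (σ : Representation K G V) A n v t g, Lt σ A n → Cj ⊤ σ A 1 v → Tr σ A t → v t ∈ sc A 1 →
    (Cv σ A v (g * t) ↔ Cv σ A v g)
  uni : ∀ (σ : Representation K G V) e A B n v u η g μ, Hs 𝔞.cy σ e A B n v u η → Cv σ A v g →
    μ ∈ B → u g - d0 σ μ g ∈ sc B 1 → (Fx e σ B v u η g ↔ η g + e (v g) (σ g μ) ∈ O)
  flip : ∀ (σ : Representation K G V) e A B n v u η t g, Hs 𝔞.cy σ e A B n v u η → Tr σ A t →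
    Tr σ B t → v t ∈ sc A 1 → u t ∈ sc B 1 → η t ∉ O → Cv σ A v g → Cv σ B u g →
    (Fx e σ B v u η (g * t) ↔ ¬ Fx e σ B v u η g)
  cm1 : ∀ (σ : Representation K G V) A n v t h, Lt σ A n → Cj ⊤ σ A 1 v → Tr σ A h →
    Tr σ A (cm t h) ∧ v (cm t h) - d0 σ (v h) t ∈ sc A 1
  cm2 : ∀ (σ : Representation K G V) e A B n v u η g h, Hs 𝔞.cy σ e A B n v u η → Tr σ A g →
    Tr σ B g → Tr σ A h → Tr σ B h → η (cm g h) - (e (v g) (u h) + e (v h) (u g)) ∈ O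
  chr : ∀ (σ : Representation K G V) e A B n v u η (D : Subgroup G) μ, Hs 𝔞.cy σ e A B n v u η →
    μ ∈ B → (∀ g ∈ D, u g - d0 σ μ g ∈ sc B 1) → ∀ g ∈ D, ∀ h ∈ D,
      (η (g * h) + e (v (g * h)) (σ (g * h) μ)) - (η g + e (v g) (σ g μ)) -
        (η h + e (v h) (σ h μ)) ∈ O

end mod

/-- the algebra of the cube -/
structure CUBE (V : Type) [AddCommGroup V] [Module K V] (ι : Type) [DecidableEq ι] : Prop where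
  dins : ∀ (T : Finset ι) i (f : Finset ι → V), i ∉ T →
    Dl (insert i T) f = Dl T f - Dl T fun w => f (insert i w)
  dtop : ∀ (T : Finset ι) (f : Finset ι → V),
    Dl T f = (-1 : K) ^ T.card • f T + ∑ w ∈ T.ssubsets, (-1 : K) ^ w.card • f w
  ins : ∀ (J : Finset ι) i (A : AddSubgroup V) f, i ∉ J → (f ∈ AA (insert i J) A ↔
    f ∈ AA J A ∧ (fun w => (2 : K)⁻¹ • (f w - f (insert i w))) ∈ AA J A)
  val : ∀ (J : Finset ι) (A : AddSubgroup V) f w, f ∈ AA J A → w ⊆ J → f w ∈ A ∧ f w - f ∅ ∈ sc A 1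
  cst : ∀ (J : Finset ι) (A : AddSubgroup V) f a, a ∈ A → (∀ w ⊆ J, f w - a ∈ sc A J.card) →
    f ∈ AA J A
  scA : ∀ (J : Finset ι) (A : AddSubgroup V) j, sc (AA J A) j = AA J (sc A j)
  cong : ∀ (J : Finset ι) (A : AddSubgroup V) f f', (∀ w ⊆ J, f w = f' w) → f ∈ AA J A →
    f' ∈ AA J A
  tog : ∀ (T : Finset ι) i (N : AddSubgroup V) f, i ∈ T →
    (∀ w ⊆ T.erase i, f (insert i w) - f w ∈ N) → Dl T f ∈ N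
  top : ∀ (T : Finset ι) (A : AddSubgroup V) f (ε : ι → K), (∀ U ⊂ T, Dl U f ∈ sc A U.card) →
    (∀ i, ε i = 1 ∨ ε i = -1) →
    Dl T (fun w => (∏ i ∈ w, ε i) • f w) - (∏ i ∈ T, ε i) • Dl T f ∈ sc A T.card

section cube

variable {G : Type} [Group G] [TopologicalSpace G] (𝔞 : Ar G) (V : Type) [AddCommGroup V]
  [Module K V] [TopologicalSpace V] (ι : Type) [DecidableEq ι]

/-- the module of the cube -/
structure CUM : Prop where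
  lt : ∀ (σ : Representation K G V) A n (J : Finset ι) χ, Ct σ → Lt σ A n → Cu J χ →
    Ct (cu σ χ) ∧ Lt (cu σ χ) (AA J A) (n ^ 2 ^ J.card)
  pm : ∀ (σ : Representation K G V) e A B n (J : Finset ι) χ, Pm 𝔞.cy σ e A B n → Cu J χ →
    Pm 𝔞.cy (cu σ χ) (pc J e) (AA J A) (AA J B) (n ^ 2 ^ J.card)
  tr : ∀ (σ : Representation K G V) A (J : Finset ι) (χ : Finset ι → G →* K) g, Tr σ A g →
    (χ ∅ g = 1 ∨ χ ∅ g = -1) → (∀ w ⊆ J, χ w g = χ ∅ g) → Tr (cu σ χ) (AA J A) g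

end cube

section sy

variable {G : Type} [Group G] [TopologicalSpace G] {𝔞 : Ar G} {V : Type} [AddCommGroup V]
  [Module K V] [TopologicalSpace V] (s : Sy 𝔞 V)

/-- local conditions -/
structure LOCS : Prop where
  unl : ∀ A n χ p j ψ, Ct s.ρ → Lt s.ρ A n → Qc χ → p.Prime → p ∉ s.S → (∀ i ∈ 𝔞.I p, χ i = 1) →
    Cj (𝔞.D p) (tw s.ρ χ) A j ψ → (∀ i ∈ 𝔞.I p, ψ i ∈ sc A j) →
    ∃ a, ∀ g ∈ 𝔞.D p, ψ g - d0 (tw s.ρ χ) a g ∈ sc A j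
  ram : ∀ A n χ p j ψ, Ct s.ρ → Lt s.ρ A n → Qc χ → p.Prime → p ∉ s.S → χ (𝔞.τ p) = -1 →
    Cj (𝔞.D p) (tw s.ρ χ) A (j + 1) ψ →
    (∀ g ∈ 𝔞.D p, ψ g - d0 (tw s.ρ χ) (-((2 : K)⁻¹ • ψ (𝔞.τ p))) g ∈ sc A j) ∧
      ∀ i ∈ 𝔞.I p, ψ i - d0 (tw s.ρ χ) (-((2 : K)⁻¹ • ψ (𝔞.τ p))) i ∈ sc A (j + 1)
  ine : ∀ A n χ p j ψ, Lt s.ρ A n → Qc χ → p.Prime → p ∉ s.S →
    Cj (𝔞.I p) (tw s.ρ χ) A j ψ → ψ (𝔞.τ p) ∈ sc A j → ∀ i ∈ 𝔞.I p, ψ i ∈ sc A j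
  all : ∀ A n χ j T U ψ, Ct s.ρ → Lt s.ρ A n → Qc χ → s.S ⊆ T →
    (∀ p, p.Prime → p ∉ U → ∀ i ∈ 𝔞.I p, χ i = 1) →
    (∀ p ∈ U, p.Prime → p ∉ T → χ (𝔞.τ p) = -1) → Sel s χ A (j + 1) T U ψ →
    ∀ v, Pl v → Lc s v χ A j ψ
  p1 : ∀ A B n χ v j ψ y, Pm 𝔞.cy s.ρ s.e A B n → Qc χ → Pl v → Lc s v χ A j ψ → Lc s v χ B j y →
    (∀ g ∈ 𝔞.D v, ψ g ∈ A) → (∀ g ∈ 𝔞.D v, y g ∈ B) → B2 𝔞.cy (𝔞.D v) (lv s.e (tw s.ρ χ) j ψ y)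

variable (ι : Type) [DecidableEq ι]

/-- the lifts on a cube of one colour interpolate -/
def KEY : Prop := ∀ (d : Dat G ι) A n m vh lf Y (J : Finset ι) (y z : ι → ℕ), d.Ok s → Ct s.ρ →
  Lt s.ρ A n → d.Mo s A m vh lf Y → J ⊆ d.I → J.card ≤ m → (∀ i ∈ J, z i ≠ y i) →
  (∀ w ⊆ J, cor J y z w ∈ Y) → ∀ g, fv lf (cor J y z) g ∈ AA J A

/-- the completion at the top corner is a lift of level `m` -/
def CLO : Prop := ∀ (d : Dat G ι) A n m vh lf Y (J : Finset ι) (y z : ι → ℕ), d.Ok s → Ct s.ρ →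
  Lt s.ρ A n → d.Mo s A m vh lf Y → J ⊆ d.I → J.card = m → 3 ≤ m → (∀ i ∈ J, z i ≠ y i) →
  (∀ i ∉ J, y i = z i) → (∀ i, z i ∈ d.X i) → (∀ w ⊂ J, cor J y z w ∈ Y) →
  d.Pt 𝔞 z ∧ d.Lf s A m vh z (tp lf J y z) ∧ (∀ g, fc lf J y z g ∈ AA J A) ∧
    (∀ g, Dl J (fc lf J y z g) = 0) ∧
    ∀ i ∈ d.I, tp lf J y z (𝔞.τ (z i)) - lf y (𝔞.τ (y i)) ∈ sc A m

/-- at the common prime of a face the class is a coboundary -/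
def AUTO : Prop := ∀ (d : Dat G ι) A n m vh lf Y (J : Finset ι) b (y z : ι → ℕ), d.Ok s →
  Ct s.ρ → Lt s.ρ A n → d.Mo s A m vh lf Y → J ⊆ d.I → b ∈ d.I → b ∉ J → J.card + 1 ≤ m →
  (∀ w ⊆ J, cor J y z w ∈ Y) → ∃ α ∈ AA J A, ∀ g ∈ 𝔞.D (y b),
    fv lf (cor J y z) g - d0 (d.fσ s (cor J y z)) α g ∈ sc (AA J A) 1

/-- on a cube of one colour the class of the face dies at the Frobenius of the top -/
def MONO : Prop := ∀ (d : Dat G ι) A n m vh lf Y (J : Finset ι) b (y z : ι → ℕ), d.Ok s →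
  Ct s.ρ → Lt s.ρ A n → d.Mo s A m vh lf Y → J ⊆ d.I → b ∈ J → J.card = m →
  (∀ i ∈ J, z i ≠ y i) → (∀ w ⊆ J, cor J y z w ∈ Y) →
  Cv (d.fσ s (cor (J.erase b) y z)) (AA (J.erase b) A) (fv lf (cor (J.erase b) y z)) (𝔞.F (z b))

/-- existence of the Heisenberg data -/
def HEX : Prop := ∀ (d : Dat G ι) A B n m vh uh la lb Y (J : Finset ι) b (y z : ι → ℕ), d.Ok s →
  Pm 𝔞.cy s.ρ s.e A B n → d.Mo s A m vh la Y → d.Mo s B m uh lb Y → J ⊆ d.I → b ∈ d.I → b ∉ J →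
  J.card + 1 = m → (∀ i ∈ J, z i ≠ y i) → (∀ w ⊆ J, cor J y z w ∈ Y) →
  ∃ η, d.Fd s A B n la lb J b (cor J y z) η

/-- the cocycles of level one which are unramified outside `T` -/
structure COL : Prop where
  ind : ∀ (d : Dat G ι) A n (x x' : ι → ℕ) φ, d.Ok s → Lt s.ρ A n → (∀ i, x i ∈ d.X i) →
    (∀ i, x' i ∈ d.X i) → Sel s (d.ch 𝔞 x) A 1 d.T d.T φ → Sel s (d.ch 𝔞 x') A 1 d.T d.T φ
  bd : ∀ (d : Dat G ι) A n (n' : ℕ) (x : ι → ℕ), d.Ok s → Ct s.ρ → Lt s.ρ A n →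
    (∀ i, x i ∈ d.X i) → (Z1 s (d.ch 𝔞 x) A (d.sp x)).encard ≤ n' →
    (Z1 s (d.ch 𝔞 x) A d.T).encard ≤ (n ^ d.I.card * n' : ℕ)
  sep : ∀ (d : Dat G ι) A n (n' : ℕ) (x : ι → ℕ), d.Ok s → Ct s.ρ → Lt s.ρ A n →
    (∀ i, x i ∈ d.X i) → (Z1 s (d.ch 𝔞 x) A (d.sp x)).encard ≤ n' →
    ∃ gs : Finset G, gs.card ≤ n ^ d.I.card * n' ∧ d.Sp s A gs
  cnt : ∀ (A : AddSubgroup V) n j, Lt s.ρ A n → (rd A j '' (A : Set V)).encard ≤ (n ^ j : ℕ)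

/-- invariance under one move -/
def INV : Prop := ∀ (d : Dat G ι) A n (x x' : ι → ℕ) i, d.Ok s → Ct s.ρ → Lt s.ρ A n → i ∈ d.I →
  d.Pt 𝔞 x → d.Pt 𝔞 x' → (∀ j, j ≠ i → x j = x' j) → El s.ρ A (𝔞.F (x i)) →
  El s.ρ A (𝔞.F (x' i)) →
  (Z1 s (d.ch 𝔞 x') A (d.sp x')).encard ≤ (Z1 s (d.ch 𝔞 x) A (d.sp x)).encard ∧
    ∀ φ', Sel s (d.ch 𝔞 x') A 1 (d.sp x') (d.sp x') φ' →
      ∃ φ, Sel s (d.ch 𝔞 x) A 1 (d.sp x) (d.sp x) φ ∧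
        φ (𝔞.τ (x i)) - φ' (𝔞.τ (x' i)) ∈ sc A 1 ∧
        ∀ p, p.Prime → p ≠ 2 → p ≠ x i → p ≠ x' i → φ (𝔞.τ p) - φ' (𝔞.τ p) ∈ sc A 1

/-- both classes of the face die at `g` -/
def Dat.Cc (d : Dat G ι) (A B : AddSubgroup V) (la lb : (ι → ℕ) → G → V) (J : Finset ι)
    (c : Finset ι → ι → ℕ) (g : G) : Prop :=
  Cv (d.fσ s c) (AA J A) (fv la c) g ∧ Cv (d.fσ s c) (AA J B) (fv lb c) g

/-- `g` has a fixed point on the Heisenberg set of the face -/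
def Dat.Ff (d : Dat G ι) (B : AddSubgroup V) (la lb : (ι → ℕ) → G → V) (J : Finset ι)
    (c : Finset ι → ι → ℕ) (η : G → K) (g : G) : Prop :=
  Fx (pc J s.e) (d.fσ s c) (AA J B) (fv la c) (fv lb c) η g

/-- the reflection -/
def REF : Prop := ∀ (d : Dat G ι) A B n m vh uh la lb Y (J : Finset ι) b (y z : ι → ℕ) η υ,
  d.Ok s → Pm 𝔞.cy s.ρ s.e A B n → d.Mo s A m vh la Y → d.Mo s B m uh lb Y → J ⊆ d.I → b ∈ J →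
  J.card = m → 3 ≤ m → (∀ i ∈ J, z i ≠ y i) → (∀ i ∉ J, y i = z i) → (∀ i, z i ∈ d.X i) →
  (∀ w ⊂ J, cor J y z w ∈ Y) →
  d.Fd s A B n la lb (J.erase b) b (cor (J.erase b) y z) η → d.Lf s B (m + 1) uh z υ →
  (∀ i ∈ d.I, ∀ j ∈ d.I, d.Rl s B z i j) → El s.ρ B (𝔞.F (z b)) →
  d.Cc s ι A B la lb (J.erase b) (cor (J.erase b) y z) (𝔞.F (z b)) →
  (d.Ff s ι B la lb (J.erase b) (cor (J.erase b) y z) η (𝔞.F (z b)) ↔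
    d.Ff s ι B la lb (J.erase b) (cor (J.erase b) y z) η (𝔞.F (y b)))

/-- cancellation in the direction `b` -/
def CANC : Prop := ∀ (d : Dat G ι) A B n m vh uh la lb (J : Finset ι) b (N : ℕ)
  (Y : Fin (N + 1) → Set (ι → ℕ)) (y : Fin (N + 1) → ι → ℕ) (x x' : ι → ℕ)
  (η : Finset ι → Fin (N + 1) → G → K) (Z : Finset ℕ) (n' c' : ℕ) (δ : ℝ),
  d.Ok s → Pm 𝔞.cy s.ρ s.e A B n → J ⊆ d.I → b ∈ d.I → b ∉ J → (∀ i ∈ J, x i ≠ x' i) →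
  (∀ l, d.Mo s A m vh la (Y l) ∧ d.Mo s B m uh lb (Y l)) →
  (∀ l, ∀ ω ⊆ J, (∀ i ∈ J, ω.piecewise x' x i ≠ y l i) ∧
    (∀ w ⊆ J, cor J (y l) (ω.piecewise x' x) w ∈ Y l) ∧
    d.Fd s A B n la lb J b (cor J (y l) (ω.piecewise x' x)) (η ω l)) →
  ND s.e s.ρ A B vh uh → (∀ i ∈ d.I, d.X i ⊆ Z) →
  hb (n ^ 2 ^ J.card) ^ ((N + 1) * 2 ^ J.card) ≤ n' → (N + 3) * d.I.card ≤ c' →
  Can 𝔞 s.ρ A B d.T Z (d.X b) n' c' δ →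
  |∑ p ∈ d.X b, ∏ ω ∈ J.powerset,
    ((if d.Ff s ι B la lb J (cor J (y 0) (ω.piecewise x' x)) (η ω 0) (𝔞.F p) then (1 : ℝ) else -1) *
      ∏ l, if d.Cc s ι A B la lb J (cor J (y l) (ω.piecewise x' x)) (𝔞.F p) then (1 : ℝ) else 0)|
    ≤ δ * (d.X b).card

variable [Fintype ι]

/-- one more level halves the mass -/
def STEP : Prop := ∀ (n n' m : ℕ) (ε : ℝ), 0 < ε → ∃ C : ℕ, ∀ (d : Dat G ι) A B (J : Finset ι) b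
  (P : (ι → ℕ) → Prop) (vh uh : G → V) (Z : Finset ℕ), d.Ok s → Pm 𝔞.cy s.ρ s.e A B n →
  (∀ i, (d.X i).Nonempty) → J ⊆ d.I → b ∈ J → J.card = m → 3 ≤ m →
  (∀ i ∈ J, C ≤ (d.X i).card) → (∀ p ∈ d.X b, El s.ρ B (𝔞.F p)) →
  (∀ p, p.Prime → p ∉ d.T → vh (𝔞.τ p) ∈ sc A 1 ∧ uh (𝔞.τ p) ∈ sc B 1) → ND s.e s.ρ A B vh uh →
  (∀ x, d.Pt 𝔞 x → P x → (Z1 s (d.ch 𝔞 x) A (d.sp x)).encard ≤ n' ∧
    (Z1 s (d.ch 𝔞 x) B (d.sp x)).encard ≤ n' ∧ ∀ i ∈ d.I, ∀ j ∈ d.I, d.Rl s B x i j) →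
  (∀ x x' i, i ∈ d.I → d.Pt 𝔞 x → d.Pt 𝔞 x' → (∀ j, j ≠ i → x j = x' j) → P x → P x') →
  (∀ i ∈ d.I, d.X i ⊆ Z) → Can 𝔞 s.ρ A B d.T Z (d.X b) C C (1 / (C + 1)) →
  2 * (((Fintype.piFinset d.X).filter (d.Yj s A B P vh uh (m + 1))).card : ℝ) ≤
    ((Fintype.piFinset d.X).filter (d.Yj s A B P vh uh m)).card +
      ε * (Fintype.piFinset d.X).card

end sy

section top

variable {G : Type} [Group G] [TopologicalSpace G] {𝔞 : Ar G} {V : Type} [AddCommGroup V]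
  [Module K V] [TopologicalSpace V] (s : Sy 𝔞 V)

/-- **the output**: non degenerate Selmer pairs are rare in a box of eligible primes -/
def LEVEL : Prop := ∀ (n n' : ℕ) (ε : ℝ), 0 < ε → ∃ R C : ℕ, ∀ (A B : AddSubgroup V)
  (T : Finset ℕ) (χ : G →* K) (X : Fin R → Finset ℕ), Pm 𝔞.cy s.ρ s.e A B n → s.S ⊆ T → Qc χ →
  (∀ p, p.Prime → p ∉ T → ∀ i ∈ 𝔞.I p, χ i = 1) →
  (∀ i, ∀ p ∈ X i, p.Prime ∧ p ∉ T ∧ El s.ρ A (𝔞.F p) ∧ El s.ρ B (𝔞.F p)) →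
  (∀ i j, i ≠ j → Disjoint (X i) (X j)) → (∀ i, C * 2 ^ T.card ≤ (X i).card) →
  (∀ i, Can 𝔞 s.ρ A B T (univ.biUnion X) (X i) (C * 2 ^ T.card) C (1 / ((C + 1) * 2 ^ T.card))) →
  (((Fintype.piFinset X).filter fun x =>
    Bad s A B n' (χ * ∏ i, 𝔞.κ (x i)) (T ∪ univ.image x)).card : ℝ) ≤
    ε * (Fintype.piFinset X).card

end top

end Vale.Agent.P004S.Ga
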